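import Vale.Agent.N069.Key

/-!
# The dual space: estimates, shrinking basis
-/

open Filter Topology Finset

namespace Vale.Agent.N069

open Vale.Agent.P069 Vale.Agent.P069.JT

/-- Two-sided lower `p`-estimate and upper `p`-estimate. -/
def Est {X : Type*} [NormedAddCommGroup X] (p κ : ℝ) (u y : X) : Prop :=
  ‖u‖ ^ p + κ * ‖y‖ ^ p ≤ max ‖u + y‖ ‖u - y‖ ^ p ∧ ‖u + y‖ ^ p ≤ ‖u‖ ^ p + ‖y‖ ^ p

/-- The estimates hold at `u` in the directions of a cofinite subspace. -/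
def TE {X : Type*} [NormedAddCommGroup X] [NormedSpace ℝ X] (p κ : ℝ) (u : X) : Prop :=
  ∃ F : Submodule ℝ X, IsCofinite F ∧ ∀ y ∈ F, Est p κ u y

lemma exists_lam {K q : ℝ} (hK : 0 < K) (hq : 1 < q) : ∃ l : ℝ, 0 < l ∧ K * l ^ q = l / 2 := by
  refine ⟨(2 * K) ^ (-(1 / (q - 1))), by positivity, ?_⟩
  set l : ℝ := (2 * K) ^ (-(1 / (q - 1))) with hl
  have hl0 : 0 < l := by positivity
  have h1 : l ^ (q - 1) = (2 * K)⁻¹ := by
    rw [hl, ← Real.rpow_mul (by positivity), neg_mul, one_div_mul_cancel (by linarith),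
      Real.rpow_neg_one]
  have h2 : l ^ q = l ^ (q - 1) * l := by
    rw [← Real.rpow_add_one hl0.ne', sub_add_cancel]
  rw [h2, h1]
  field_simp

lemma half {p q Q θ m r : ℝ} (hpq : p.HolderConjugate q) (hQ : 0 ≤ Q) (hθ : 0 ≤ θ) (hm : 0 ≤ m)
    (hr0 : 0 ≤ r) (hr : r ^ q ≤ Q) (h : θ * Q ≤ m * r) : θ ^ p * Q ≤ m ^ p := by
  have hp := hpq.pos
  have hq := hpq.symm.pos
  rcases eq_or_lt_of_le hQ with h0 | h0
  · rw [← h0, mul_zero]; positivity
  · have h1 : r ≤ Q ^ (1 / q) := by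
      have := Real.rpow_le_rpow (by positivity) hr (show 0 ≤ 1 / q by positivity)
      rwa [← Real.rpow_mul hr0, mul_one_div_cancel hq.ne', Real.rpow_one] at this
    have h2 : Q = Q ^ (1 / p) * Q ^ (1 / q) := by
      rw [← Real.rpow_add h0, one_div, one_div, hpq.inv_add_inv_eq_one, Real.rpow_one]
    have h3 : θ * Q ^ (1 / p) * Q ^ (1 / q) ≤ m * Q ^ (1 / q) := by
      rw [mul_assoc, ← h2]
      exact h.trans (mul_le_mul_of_nonneg_left h1 hm)
    have h4 : θ * Q ^ (1 / p) ≤ m := le_of_mul_le_mul_right h3 (by positivity)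
    have h5 := Real.rpow_le_rpow (by positivity) h4 hp.le
    rwa [Real.mul_rpow hθ (by positivity), ← Real.rpow_mul hQ, one_div_mul_cancel hp.ne',
      Real.rpow_one] at h5

lemma le_of_rpow_le {q a b : ℝ} (hq : 0 < q) (hb : 0 ≤ b) (h : a ^ q ≤ b ^ q) (ha : 0 ≤ a) :
    a ≤ b := (Real.rpow_le_rpow_iff ha hb hq).1 h

section general

variable {E : Type*} [NormedAddCommGroup E] [NormedSpace ℝ E]

lemma est_case {p q K l θ : ℝ} (hpq : p.HolderConjugate q) (hl : 0 < l)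
    (hKl : K * l ^ q = l / 2) (u y : StrongDual ℝ E) (hθ0 : 0 ≤ θ) {f h g : E}
    (hf1 : ‖f‖ ≤ 1) (hg1 : ‖g‖ ≤ 1) (hf2 : θ * ‖u‖ ≤ u f)
    (hyf : y f = 0) (huh : u h = 0) (hcase : θ * ‖y‖ / 2 ≤ y h)
    (hn : ‖‖u‖ ^ (p - 1) • f + (l * ‖y‖ ^ (p - 1)) • h‖ ^ q ≤
      (‖u‖ ^ (p - 1)) ^ q * ‖f‖ ^ q + K * (l * ‖y‖ ^ (p - 1)) ^ q * ‖g‖ ^ q) :
    θ ^ p * (‖u‖ ^ p + l / 2 * ‖y‖ ^ p) ≤ ‖u + y‖ ^ p := by
  have hp := hpq.pos
  have hq := hpq.symm.pos
  have e1 : ∀ x : ℝ, 0 ≤ x → (x ^ (p - 1)) ^ q = x ^ p := fun x hx => by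
    rw [← Real.rpow_mul hx, hpq.sub_one_mul_conj]
  have e2 : ∀ x : ℝ, 0 ≤ x → x ^ (p - 1) * x = x ^ p := fun x hx => by
    have := Real.rpow_add' hx (y := p - 1) (z := 1) (by linarith)
    rw [Real.rpow_one, sub_add_cancel] at this
    exact this.symm
  have ha0 : 0 ≤ ‖u‖ ^ (p - 1) := by positivity
  have hc0 : 0 ≤ l * ‖y‖ ^ (p - 1) := by positivity
  refine half hpq (by positivity) hθ0 (norm_nonneg _) (norm_nonneg _)
    (r := ‖‖u‖ ^ (p - 1) • f + (l * ‖y‖ ^ (p - 1)) • h‖) ?_ ?_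
  · refine hn.trans ?_
    rw [Real.mul_rpow hl.le (by positivity), e1 _ (norm_nonneg _), e1 _ (norm_nonneg _),
      ← mul_assoc, hKl]
    have h1 : ‖f‖ ^ q ≤ 1 := Real.rpow_le_one (norm_nonneg _) hf1 hq.le
    have h2 : ‖g‖ ^ q ≤ 1 := Real.rpow_le_one (norm_nonneg _) hg1 hq.le
    exact add_le_add (mul_le_of_le_one_right (by positivity) h1)
      (mul_le_of_le_one_right (by positivity) h2)
  · refine le_trans ?_ ((le_abs_self _).trans ((u + y).le_opNorm _))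
    rw [_root_.add_apply, map_add, map_smul, map_smul, map_add, map_smul, map_smul,
      huh, hyf]
    simp only [smul_eq_mul]
    have e3 := mul_le_mul_of_nonneg_left hf2 ha0
    have e4 := mul_le_mul_of_nonneg_left hcase hc0
    rw [← e2 _ (norm_nonneg u), ← e2 _ (norm_nonneg y)]
    nlinarith

theorem est_ineq {p q K l : ℝ} (hpq : p.HolderConjugate q) (hl : 0 < l)
    (hKl : K * l ^ q = l / 2) {P : E →ₗ[ℝ] E}
    (hP2 : ∀ w, ‖P w‖ ^ q + ‖w - P w‖ ^ q ≤ ‖w‖ ^ q)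
    (hkey : ∀ f₀ g : E, ∀ a c : ℝ, 0 ≤ a → 0 ≤ c →
      ∃ h₁ h₂ : E, g - P g = h₁ - h₂ ∧ P h₁ = 0 ∧ P h₂ = 0 ∧
      ‖a • P f₀ + c • h₁‖ ^ q ≤ a ^ q * ‖P f₀‖ ^ q + K * c ^ q * ‖g‖ ^ q ∧
      ‖a • P f₀ + c • h₂‖ ^ q ≤ a ^ q * ‖P f₀‖ ^ q + K * c ^ q * ‖g‖ ^ q)
    (u y : StrongDual ℝ E) (hu : ∀ w, u (P w) = u w) (hy : ∀ w, y (P w) = 0) :
    Est p (l / 2) u y := by
  have hp := hpq.pos
  have hq := hpq.symm.pos
  have hP : ∀ w, ‖P w‖ ≤ ‖w‖ := fun w => by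
    refine le_of_rpow_le hq (norm_nonneg _) ?_ (norm_nonneg _)
    have h1 := hP2 w
    have h2 : 0 ≤ ‖w - P w‖ ^ q := by positivity
    linarith
  refine ⟨?_, ?_⟩
  · obtain ⟨Q, hQ⟩ : ∃ Q : ℝ, Q = ‖u‖ ^ p + l / 2 * ‖y‖ ^ p := ⟨_, rfl⟩
    have main : ∀ θ : ℝ, 0 ≤ θ → θ < 1 → θ ^ p * Q ≤ max ‖u + y‖ ‖u - y‖ ^ p := by
      intro θ hθ0 hθ1
      obtain ⟨f₀, hf'1, hf'2⟩ := exists_near_norming u hθ1
      obtain ⟨g, hg1, hg2⟩ := exists_near_norming y hθ1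
      have hf1 : ‖P f₀‖ ≤ 1 := (hP f₀).trans hf'1
      have hf2 : θ * ‖u‖ ≤ u (P f₀) := by rw [hu]; exact hf'2
      obtain ⟨h₁, h₂, hdec, hr1, hr2, hn1, hn2⟩ := hkey f₀ g (‖u‖ ^ (p - 1))
        (l * ‖y‖ ^ (p - 1)) (by positivity) (by positivity)
      have hu1 : u h₁ = 0 := by rw [← hu, hr1, map_zero]
      have hu2 : u h₂ = 0 := by rw [← hu, hr2, map_zero]
      have hy12 : y h₁ - y h₂ = y g := by
        rw [← map_sub, ← hdec, map_sub, hy, sub_zero]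
      rcases le_or_gt (θ * ‖y‖ / 2) (y h₁) with hcase | hcase
      · have := est_case hpq hl hKl u y hθ0 hf1 hg1 hf2 (hy f₀) hu1 hcase hn1
        rw [← hQ] at this
        exact this.trans (Real.rpow_le_rpow (norm_nonneg _) (le_max_left _ _) hp.le)
      · have h3 : θ * ‖-y‖ / 2 ≤ (-y) h₂ := by
          rw [norm_neg, _root_.neg_apply]; linarith
        have := est_case hpq hl hKl u (-y) hθ0 hf1 hg1 hf2
          (by rw [_root_.neg_apply, hy, neg_zero]) hu2 h3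
          (by rw [norm_neg]; exact hn2)
        rw [← sub_eq_add_neg, norm_neg, ← hQ] at this
        exact this.trans (Real.rpow_le_rpow (norm_nonneg _) (le_max_right _ _) hp.le)
    have hlim : Tendsto (fun θ : ℝ => θ ^ p * Q) (𝓝[<] 1) (𝓝 (1 ^ p * Q)) := by
      have : Continuous fun θ : ℝ => θ ^ p * Q :=
        (Real.continuous_rpow_const hp.le).mul continuous_const
      exact (this.tendsto 1).mono_left nhdsWithin_le_nhds
    rw [Real.one_rpow, one_mul] at hlim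
    rw [← hQ]
    refine le_of_tendsto hlim ?_
    filter_upwards [Ioo_mem_nhdsLT (show (0 : ℝ) < 1 by norm_num)] with θ hθ
    exact main θ hθ.1.le hθ.2
  · have h1 : ‖u + y‖ ≤ (‖u‖ ^ p + ‖y‖ ^ p) ^ (1 / p) := by
      refine ContinuousLinearMap.opNorm_le_bound _ (by positivity) fun w => ?_
      have h2 : (u + y) w = u (P w) + y (w - P w) := by
        rw [_root_.add_apply, hu, map_sub, hy, sub_zero]
      have h3 := Real.inner_le_Lp_mul_Lq_of_nonneg (Finset.univ : Finset (Fin 2))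
        (f := ![‖u‖, ‖y‖]) (g := ![‖P w‖, ‖w - P w‖]) hpq
        (fun i _ => by fin_cases i <;> simp) (fun i _ => by fin_cases i <;> simp)
      simp only [Fin.sum_univ_two, Matrix.cons_val_zero, Matrix.cons_val_one] at h3
      have h4 : (‖P w‖ ^ q + ‖w - P w‖ ^ q) ^ (1 / q) ≤ ‖w‖ := by
        have := Real.rpow_le_rpow (by positivity) (hP2 w) (show 0 ≤ 1 / q by positivity)
        rwa [← Real.rpow_mul (norm_nonneg _), mul_one_div_cancel hq.ne', Real.rpow_one] at this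
      rw [h2]
      calc ‖u (P w) + y (w - P w)‖ ≤ ‖u (P w)‖ + ‖y (w - P w)‖ := norm_add_le _ _
        _ ≤ ‖u‖ * ‖P w‖ + ‖y‖ * ‖w - P w‖ := add_le_add (u.le_opNorm _) (y.le_opNorm _)
        _ ≤ _ := h3.trans (mul_le_mul_of_nonneg_left h4 (by positivity))
    have h5 := Real.rpow_le_rpow (norm_nonneg _) h1 hp.le
    rwa [← Real.rpow_mul (by positivity), one_div_mul_cancel hp.ne', Real.rpow_one] at h5

/-- The gliding hump. -/
lemma hump {q ε C : ℝ} (hq : 1 < q) (hε : 0 < ε) (u : StrongDual ℝ E) (R : ℕ → E → Prop)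
    (h0 : R 0 0) (hC : ∀ m f, R m f → ‖f‖ ^ q ≤ C * m)
    (step : ∀ m f, R m f → ∃ g, ε ≤ u g ∧ R (m + 1) (f + g)) : False := by
  have key : ∀ m : ℕ, ∃ f, R m f ∧ m * ε ≤ u f := by
    intro m
    induction m with
    | zero => exact ⟨0, h0, by simp⟩
    | succ m ih =>
      obtain ⟨f, hf, hf2⟩ := ih
      obtain ⟨g, hg, hg2⟩ := step m f hf
      refine ⟨f + g, hg2, ?_⟩
      rw [map_add]
      push_cast
      linarith
  have hb : ∀ m : ℕ, 0 < m → (m : ℝ) ^ (q - 1) ≤ ‖u‖ ^ q * C / ε ^ q := by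
    intro m hm
    have hm' : (0 : ℝ) < m := by exact_mod_cast hm
    obtain ⟨f, hf, hf2⟩ := key m
    have h1 : m * ε ≤ ‖u‖ * ‖f‖ := hf2.trans ((le_abs_self _).trans (u.le_opNorm f))
    have h2 := Real.rpow_le_rpow (by positivity) h1 (show 0 ≤ q by linarith)
    rw [Real.mul_rpow hm'.le hε.le, Real.mul_rpow (norm_nonneg _) (norm_nonneg _)] at h2
    have h3 := mul_le_mul_of_nonneg_left (hC m f hf) (show 0 ≤ ‖u‖ ^ q by positivity)
    have h4 : (m : ℝ) ^ q = (m : ℝ) ^ (q - 1) * m := by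
      rw [← Real.rpow_add_one hm'.ne', sub_add_cancel]
    rw [le_div_iff₀ (by positivity)]
    rw [h4] at h2
    refine le_of_mul_le_mul_right ?_ hm'
    nlinarith
  have ht : Tendsto (fun m : ℕ => (m : ℝ) ^ (q - 1)) atTop atTop :=
    (tendsto_rpow_atTop (by linarith)).comp tendsto_natCast_atTop_atTop
  obtain ⟨m, hm1, hm2⟩ := ((ht.eventually_gt_atTop (‖u‖ ^ q * C / ε ^ q)).and
    (eventually_gt_atTop 0)).exists
  exact absurd (hb m hm2) (not_le.2 hm1)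

lemma exists_unit {ε : ℝ} (φ : E →ₗ[ℝ] ℝ) (h : ¬ ∀ w, |φ w| ≤ ε * ‖w‖) :
    ∃ w, ‖w‖ ≤ 1 ∧ ε ≤ φ w := by
  push Not at h
  obtain ⟨w, hw⟩ := h
  have hw0 : w ≠ 0 := by
    rintro rfl
    simp at hw
  have hn : 0 < ‖w‖ := norm_pos_iff.2 hw0
  have h1 : ∀ v : E, ‖v‖ = ‖w‖ → ε * ‖w‖ ≤ φ v → ∃ w, ‖w‖ ≤ 1 ∧ ε ≤ φ w := by
    intro v hv1 hv2
    refine ⟨‖w‖⁻¹ • v, ?_, ?_⟩
    · rw [norm_smul, norm_inv, norm_norm, hv1, inv_mul_cancel₀ hn.ne']
    · rw [map_smul, smul_eq_mul, le_inv_mul_iff₀ hn]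
      linarith
  rcases le_total 0 (φ w) with h2 | h2
  · rw [abs_of_nonneg h2] at hw
    exact h1 w rfl hw.le
  · rw [abs_of_nonpos h2] at hw
    exact h1 (-w) (norm_neg _) (by rw [map_neg]; exact hw.le)

end general

variable {q : ℝ}

lemma df_rs_pos {B : ℕ → Prop} (w : Y q) {p : List ℕ × List ℕ} (hp : p.1 <:+ p.2)
    (h : B (rt p.2)) : df (rs q (fun t => B (rt t)) w).fn p = df w.fn p := by
  rw [df_eq_sum _ hp, df_eq_sum _ hp]
  refine sum_congr rfl fun u hu => rs_pos w ?_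
  rw [rt_of_on (mem_nd.1 hu)]
  exact h

lemma df_rs_neg {B : ℕ → Prop} (w : Y q) {p : List ℕ × List ℕ} (hp : p.1 <:+ p.2)
    (h : ¬ B (rt p.2)) : df (rs q (fun t => B (rt t)) w).fn p = 0 := by
  rw [df_eq_sum _ hp]
  refine sum_eq_zero fun u hu => rs_neg w ?_
  rw [rt_of_on (mem_nd.1 hu)]
  exact h

variable [hq : Fact (1 < q)]

lemma norm_rs_le (B : ℕ → Prop) (w : Y q) : ‖rs q (fun t => B (rt t)) w‖ ≤ ‖w‖ := by
  have h0 : 0 < q := by linarith [hq.out]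
  refine le_of_rpow_le h0 (norm_nonneg _) ?_ (norm_nonneg _)
  rw [norm_eq, norm_eq]
  refine nrm_le hq.out.le fun m S hS => le_trans (sum_le_sum fun i _ => ?_)
    (sum_le_nrm hq.out.le w.mem hS)
  by_cases h : B (rt (S i).2)
  · rw [df_rs_pos w (hS.1 i) h]
  · rw [df_rs_neg w (hS.1 i) h, abs_zero, Real.zero_rpow h0.ne']
    positivity

lemma norm_le_rs (B : ℕ → Prop) (w : Y q) :
    ‖w‖ ^ q ≤ ‖rs q (fun t => B (rt t)) w‖ ^ q + ‖rs q (fun t => ¬ B (rt t)) w‖ ^ q := by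
  rw [norm_eq, norm_eq, norm_eq]
  refine nrm_le hq.out.le fun m S hS => le_trans ?_
    (add_le_add (sum_le_nrm hq.out.le (rs q (fun t => B (rt t)) w).mem hS)
      (sum_le_nrm hq.out.le (rs q (fun t => ¬ B (rt t)) w).mem hS))
  rw [← sum_add_distrib]
  refine sum_le_sum fun i _ => ?_
  by_cases h : B (rt (S i).2)
  · rw [df_rs_pos w (hS.1 i) h]
    exact le_add_of_nonneg_right (by positivity)
  · rw [df_rs_pos (B := fun n => ¬ B n) w (hS.1 i) h]
    exact le_add_of_nonneg_left (by positivity)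

lemma shrinkB (u : StrongDual ℝ (Y q)) {ε : ℝ} (hε : 0 < ε) :
    ∃ N : ℕ, ∀ w, |u (rs q (fun t => ¬ rt t < N) w)| ≤ ε * ‖w‖ := by
  by_contra hcon
  have h0 : 0 < q := by linarith [hq.out]
  refine hump (C := 1) hq.out hε u (fun m f => ‖f‖ ^ q ≤ m) ?_ (fun m f h => by linarith) ?_
  · rw [norm_zero, Real.zero_rpow h0.ne', Nat.cast_zero]
  · intro m f hf
    obtain ⟨⟨D, hD⟩, _⟩ := f.mem
    set N : ℕ := D.sup rt + 1 with hN
    have hfN : ∀ t, ¬ rt t < N → f.fn t = 0 := fun t ht => hD t fun h =>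
      ht (Nat.lt_succ_of_le (Finset.le_sup (f := rt) h))
    obtain ⟨w, hw1, hw2⟩ := exists_unit (u.toLinearMap.comp (rs q fun t => ¬ rt t < N))
      fun h => hcon ⟨N, h⟩
    refine ⟨rs q (fun t => ¬ rt t < N) w, hw2, ?_⟩
    have h1 := norm_le_rs (fun n => n < N) (f + rs q (fun t => ¬ rt t < N) w)
    have e1 : rs q (fun t => rt t < N) (f + rs q (fun t => ¬ rt t < N) w) = f := by
      refine Y.ext fun t => ?_
      by_cases h : rt t < N
      · rw [rs_pos _ h, fn_add, rs_neg w (not_not.2 h), add_zero]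
      · rw [rs_neg _ h, hfN t h]
    have e2 : rs q (fun t => ¬ rt t < N) (f + rs q (fun t => ¬ rt t < N) w) =
        rs q (fun t => ¬ rt t < N) w := by
      refine Y.ext fun t => ?_
      by_cases h : rt t < N
      · rw [rs_neg _ (not_not.2 h), rs_neg _ (not_not.2 h)]
      · rw [rs_pos (A := fun t => ¬ rt t < N) _ h, fn_add, hfN t h, zero_add]
    rw [e1, e2] at h1
    have h2 : ‖rs q (fun t => ¬ rt t < N) w‖ ^ q ≤ 1 :=
      Real.rpow_le_one (norm_nonneg _) ((norm_rs_le (fun n => ¬ n < N) w).trans hw1) h0.le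
    push_cast
    linarith

lemma shrinkA (u : StrongDual ℝ (Y q)) {ε : ℝ} (hε : 0 < ε) (N : ℕ) :
    ∃ D : Finset (List ℕ), ∀ w, |u (rs q (fun t => rt t < N ∧ t ∉ D) w)| ≤ ε * ‖w‖ := by
  classical
  by_contra hcon
  have h0 : 0 < q := by linarith [hq.out]
  refine hump (C := ((N : ℝ) + 1) ^ (q - 1)) hq.out hε u
    (fun m f => ∃ D : Finset (List ℕ), (∀ t, t ∉ D → f.fn t = 0) ∧
      (∀ t, f.fn t ≠ 0 → rt t < N) ∧ ∑ t ∈ D, |f.fn t| ^ q ≤ m) ?_ ?_ ?_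
  · exact ⟨∅, fun _ _ => rfl, fun t ht => absurd rfl ht, by simp⟩
  · rintro m f ⟨D, h1, h2, h3⟩
    rw [norm_eq]
    refine nrm_le hq.out.le fun k S hS => (sum_df_le (N := N) hq.out.le h1 (fun t ht => ?_) hS).trans
      (mul_le_mul_of_nonneg_left h3 (by positivity))
    have h4 : Al t := by
      by_contra h
      exact ht (f.mem.2 t h)
    have := h2 t ht
    have := h4.2
    omega
  · rintro m f ⟨D, h1, h2, h3⟩
    obtain ⟨w, hw1, hw2⟩ := exists_unit (u.toLinearMap.comp (rs q fun t => rt t < N ∧ t ∉ D))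
      fun h => hcon ⟨D, h⟩
    obtain ⟨⟨E, hE⟩, _⟩ := w.mem
    refine ⟨rs q (fun t => rt t < N ∧ t ∉ D) w, hw2, D ∪ (E \ D), fun t ht => ?_,
      fun t ht => ?_, ?_⟩
    · rw [mem_union, not_or, Finset.mem_sdiff, not_and, not_not] at ht
      rw [fn_add, h1 t ht.1, zero_add]
      by_cases h : rt t < N ∧ t ∉ D
      · rw [rs_pos (A := fun t => rt t < N ∧ t ∉ D) w h]
        exact hE t fun h' => ht.1 (ht.2 h')
      · exact rs_neg (A := fun t => rt t < N ∧ t ∉ D) w h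
    · by_contra h
      refine ht ?_
      rw [fn_add, rs_neg (A := fun t => rt t < N ∧ t ∉ D) w fun h' => h h'.1, add_zero]
      by_contra h'
      exact h (h2 t h')
    · rw [sum_union disjoint_sdiff]
      have e1 : ∑ t ∈ D, |(f + rs q (fun t => rt t < N ∧ t ∉ D) w).fn t| ^ q =
          ∑ t ∈ D, |f.fn t| ^ q := sum_congr rfl fun t ht => by
        rw [fn_add, rs_neg (A := fun t => rt t < N ∧ t ∉ D) w fun h' => h'.2 ht, add_zero]
      have e2 : ∑ t ∈ E \ D, |(f + rs q (fun t => rt t < N ∧ t ∉ D) w).fn t| ^ q ≤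
          ∑ t ∈ E \ D, |w.fn t| ^ q := sum_le_sum fun t ht => by
        rw [fn_add, h1 t (Finset.mem_sdiff.1 ht).2, zero_add]
        by_cases h : rt t < N ∧ t ∉ D
        · rw [rs_pos (A := fun t => rt t < N ∧ t ∉ D) w h]
        · rw [rs_neg (A := fun t => rt t < N ∧ t ∉ D) w h, abs_zero, Real.zero_rpow h0.ne']
          positivity
      have e3 := sum_rpow_le_nrm hq.out.le w.mem (E \ D)
      have e4 : nrm q w.fn ^ q ≤ 1 := Real.rpow_le_one (nrm_nonneg _ _) hw1 h0.le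
      push_cast
      linarith

/-- Finite sets of nodes closed under taking the parent. -/
def Cl (D : Finset (List ℕ)) : Prop := [] ∈ D ∧ ∀ k t, k :: t ∈ D → t ∈ D

lemma norm_PD_le {D : Finset (List ℕ)} (hD : Cl D) (w : Y q) : ‖PD q D w‖ ≤ ‖w‖ := by
  refine le_of_rpow_le (by linarith [hq.out]) (norm_nonneg _) ?_ (norm_nonneg _) (q := q)
  have h1 := lower_q hD.1 hD.2 w
  have h2 : 0 ≤ ‖w - PD q D w‖ ^ q := by positivity
  linarith

lemma norm_sub_PD_le {D : Finset (List ℕ)} (hD : Cl D) (w : Y q) : ‖w - PD q D w‖ ≤ ‖w‖ := by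
  refine le_of_rpow_le (by linarith [hq.out]) (norm_nonneg _) ?_ (norm_nonneg _) (q := q)
  have h1 := lower_q hD.1 hD.2 w
  have h2 : 0 ≤ ‖PD q D w‖ ^ q := by positivity
  linarith

/-- The basis is shrinking. -/
theorem shrink (u : StrongDual ℝ (Y q)) {ε : ℝ} (hε : 0 < ε) :
    ∃ D : Finset (List ℕ), ∀ D', D ⊆ D' → Cl D' → ∀ w, |u w - u (PD q D' w)| ≤ ε * ‖w‖ := by
  obtain ⟨N, hN⟩ := shrinkB u (half_pos hε)
  obtain ⟨D, hD⟩ := shrinkA u (half_pos hε) N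
  refine ⟨D, fun D' hDD hD' w => ?_⟩
  set v := w - PD q D' w with hv
  have e : v = rs q (fun t => ¬ rt t < N) v + rs q (fun t => rt t < N ∧ t ∉ D) v := by
    refine Y.ext fun t => ?_
    rw [fn_add]
    by_cases h : rt t < N
    · rw [rs_neg v (not_not.2 h), zero_add]
      by_cases h2 : t ∈ D
      · rw [rs_neg (A := fun t => rt t < N ∧ t ∉ D) v fun h' => h'.2 h2, hv, fn_sub,
          PD_pos w (hDD h2), sub_self]
      · rw [rs_pos (A := fun t => rt t < N ∧ t ∉ D) v ⟨h, h2⟩]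
    · rw [rs_pos (A := fun t => ¬ rt t < N) v h,
        rs_neg (A := fun t => rt t < N ∧ t ∉ D) v fun h' => h h'.1, add_zero]
  have h1 := hN v
  have h2 := hD v
  have h3 : ‖v‖ ≤ ‖w‖ := norm_sub_PD_le hD' w
  have h4 : u w - u (PD q D' w) = u (rs q (fun t => ¬ rt t < N) v) +
      u (rs q (fun t => rt t < N ∧ t ∉ D) v) := by rw [← map_add, ← e, hv, map_sub]
  rw [h4]
  refine (abs_add_le _ _).trans ?_
  nlinarith

end Vale.Agent.N069
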