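import Vale.Agent.N069.Space

/-!
# The lower `q`-estimate and the two-sided upper `q`-estimate
-/

open Filter Topology Finset

namespace Vale.Agent.N069

open Vale.Agent.P069 Vale.Agent.P069.JT

variable {q : ℝ}

open Classical in
/-- Restriction to a set of nodes. -/
noncomputable def rs (q : ℝ) (A : List ℕ → Prop) : Y q →ₗ[ℝ] Y q where
  toFun w := Y.mk q (fun t => if A t then w.fn t else 0)
    (mem_VV_of_le w.mem fun t ht => by simp [ht])
  map_add' v w := Y.ext fun t => by
    change (if A t then v.fn t + w.fn t else 0) =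
      (if A t then v.fn t else 0) + (if A t then w.fn t else 0)
    split_ifs <;> simp
  map_smul' a w := Y.ext fun t => by
    change (if A t then a * w.fn t else 0) = a * (if A t then w.fn t else 0)
    split_ifs <;> simp

lemma rs_pos {A : List ℕ → Prop} (w : Y q) {t : List ℕ} (h : A t) : (rs q A w).fn t = w.fn t :=
  if_pos h

lemma rs_neg {A : List ℕ → Prop} (w : Y q) {t : List ℕ} (h : ¬ A t) : (rs q A w).fn t = 0 :=
  if_neg h

/-- Restriction to a finite set of nodes. -/
noncomputable def PD (q : ℝ) (D : Finset (List ℕ)) : Y q →ₗ[ℝ] Y q := rs q fun t => t ∈ D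

lemma PD_pos {D : Finset (List ℕ)} (w : Y q) {t : List ℕ} (h : t ∈ D) :
    (PD q D w).fn t = w.fn t := rs_pos w h

lemma PD_neg {D : Finset (List ℕ)} (w : Y q) {t : List ℕ} (h : t ∉ D) : (PD q D w).fn t = 0 :=
  rs_neg w h

section vv

variable {D : Finset (List ℕ)}

lemma cm_supp {f : List ℕ → ℝ} (hf : ∀ t, t ∉ D → f t = 0) (t : List ℕ) :
    cm f t = cm f (vv D t) := by
  induction t with
  | nil => rfl
  | cons k t ih =>
    by_cases h : k :: t ∈ D
    · rw [vv_of_mem h]
    · rw [vv_of_not_mem h, ← ih, cm_cons, hf _ h, add_zero]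

lemma cm_PD (hD : ∀ k t, k :: t ∈ D → t ∈ D) (w : Y q) (t : List ℕ) :
    cm (PD q D w).fn t = cm w.fn (vv D t) := by
  induction t with
  | nil => rfl
  | cons k t ih =>
    rw [cm_cons, ih]
    by_cases h : k :: t ∈ D
    · rw [vv_of_mem h, vv_of_mem (hD k t h), PD_pos w h, cm_cons]
    · rw [vv_of_not_mem h, PD_neg w h, add_zero]

lemma cm_sub (v w : Y q) (t : List ℕ) : cm (v - w).fn t = cm v.fn t - cm w.fn t := by
  have h := cm_lin 1 (-1) v.fn w.fn t
  have e : (fun s => 1 * v.fn s + -1 * w.fn s) = (v - w).fn := by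
    funext s
    rw [fn_sub]; ring
  rw [e] at h
  rw [h]; ring

lemma df_PD (hD : ∀ k t, k :: t ∈ D → t ∈ D) (w : Y q) (p : List ℕ × List ℕ) :
    df (PD q D w).fn p = df w.fn (Din D p) := by
  rw [df, df, cm_PD hD, cm_PD hD, Din]

lemma df_sub_PD (hD : ∀ k t, k :: t ∈ D → t ∈ D) (w : Y q) {p : List ℕ × List ℕ}
    (hp : p.1 <:+ p.2) : df (w - PD q D w).fn p = df w.fn (Dout D p) := by
  rw [df, df, cm_sub, cm_sub, cm_PD hD, cm_PD hD, Dout]
  simp only
  split_ifs with hs
  · rw [vv_of_mem hs]; ring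
  · rw [vv_eq_of_not_mem hD hp hs]; ring

end vv

/-- The size of the segment sums of `g` beyond `v`. -/
noncomputable def MM (D : Finset (List ℕ)) (g : List ℕ → ℝ) (v : List ℕ) : ℝ :=
  sSup {x | ∃ t, vv D t = v ∧ |df g (v, t)| = x}

lemma bdd_MM (hq : 1 ≤ q) (D : Finset (List ℕ)) {g : List ℕ → ℝ} (hg : g ∈ VV) (v : List ℕ) :
    BddAbove {x | ∃ t, vv D t = v ∧ |df g (v, t)| = x} := by
  refine ⟨nrm q g, ?_⟩
  rintro x ⟨t, rfl, rfl⟩
  exact abs_df_le hq hg (vv_suffix t)

lemma le_MM (D : Finset (List ℕ)) {g : List ℕ → ℝ} (hg : g ∈ VV) (t : List ℕ) :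
    |df g (vv D t, t)| ≤ MM D g (vv D t) :=
  le_csSup (bdd_MM le_rfl D hg _) ⟨t, rfl, rfl⟩

lemma MM_nonneg {D : Finset (List ℕ)} {g : List ℕ → ℝ} (hg : g ∈ VV) {v : List ℕ} (hv : v ∈ D) :
    0 ≤ MM D g v := by
  have h := le_MM D hg v
  rw [vv_of_mem hv] at h
  exact (abs_nonneg _).trans h

lemma sum_MM_le (hq : 1 ≤ q) {D : Finset (List ℕ)} (hD : ∀ k t, k :: t ∈ D → t ∈ D)
    {g : List ℕ → ℝ} (hg : g ∈ VV) : ∑ v ∈ D, MM D g v ^ q ≤ nrm q g ^ q := by
  have main : ∀ θ : ℝ, 0 ≤ θ → θ < 1 → θ ^ q * ∑ v ∈ D, MM D g v ^ q ≤ nrm q g ^ q := by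
    intro θ hθ0 hθ1
    have h1 : ∀ v : {v // v ∈ D}, ∃ t, vv D t = v.1 ∧ θ * MM D g v.1 ≤ |df g (v.1, t)| := by
      intro v
      rcases eq_or_lt_of_le (MM_nonneg hg v.2) with h | h
      · exact ⟨v.1, vv_of_mem v.2, by rw [← h, mul_zero]; exact abs_nonneg _⟩
      · have hne : {x | ∃ t, vv D t = v.1 ∧ |df g (v.1, t)| = x}.Nonempty :=
          ⟨_, v.1, vv_of_mem v.2, rfl⟩
        have hlt : θ * MM D g v.1 < sSup {x | ∃ t, vv D t = v.1 ∧ |df g (v.1, t)| = x} := by
          change _ < MM D g v.1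
          nlinarith
        obtain ⟨x, ⟨t, ht, rfl⟩, hx⟩ := exists_lt_of_lt_csSup hne hlt
        exact ⟨t, ht, hx.le⟩
    choose τ hτ1 hτ2 using h1
    have hon : ∀ (v : {v // v ∈ D}) (u : List ℕ), On u (v.1, τ v) → vv D u = v.1 := by
      intro v u hu
      obtain ⟨hu1, hu2⟩ := hu
      simp only at hu1 hu2
      have h2 : v.1 <:+ τ v := by
        have := vv_suffix (D := D) (τ v)
        rwa [hτ1] at this
      have h3 : v.1 <:+ u := by
        rcases List.suffix_or_suffix_of_suffix h2 hu1 with h3 | h3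
        · exact h3
        · exact absurd h3 hu2
      have h4 : u ∉ D := fun hu => hu2 (by
        have := suffix_vv hu hu1
        rwa [hτ1] at this)
      rw [vv_eq_of_not_mem hD hu1 h4, hτ1]
    have hS : IsSys (fun v : {v // v ∈ D} => (v.1, τ v)) := by
      refine ⟨fun v => ?_, fun v w hvw u hu hu' => hvw ?_⟩
      · have := vv_suffix (D := D) (τ v)
        rwa [hτ1] at this
      · exact Subtype.ext ((hon v u hu).symm.trans (hon w u hu'))
    refine le_trans ?_ (sum_le_nrm hq hg hS)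
    rw [mul_sum, ← sum_coe_sort]
    refine sum_le_sum fun v _ => ?_
    rw [← Real.mul_rpow hθ0 (MM_nonneg hg v.2)]
    exact Real.rpow_le_rpow (mul_nonneg hθ0 (MM_nonneg hg v.2)) (hτ2 v) (by linarith)
  have hlim : Tendsto (fun θ : ℝ => θ ^ q * ∑ v ∈ D, MM D g v ^ q) (𝓝[<] 1)
      (𝓝 (1 ^ q * ∑ v ∈ D, MM D g v ^ q)) := by
    have : Continuous fun θ : ℝ => θ ^ q * ∑ v ∈ D, MM D g v ^ q :=
      (Real.continuous_rpow_const (by linarith)).mul continuous_const
    exact (this.tendsto 1).mono_left nhdsWithin_le_nhds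
  rw [Real.one_rpow, one_mul] at hlim
  refine le_of_tendsto hlim ?_
  filter_upwards [Ioo_mem_nhdsLT (show (0 : ℝ) < 1 by norm_num)] with θ hθ
  exact main θ hθ.1.le hθ.2

lemma rpow_le_of_abs_le (hq : 1 ≤ q) {x a y : ℝ} (ha : 0 ≤ a) (hy : 0 ≤ y) (h : |x| ≤ a * y) :
    |x| ^ q ≤ a ^ q * y ^ q := by
  rw [← Real.mul_rpow ha hy]
  exact Real.rpow_le_rpow (abs_nonneg _) h (by linarith)

theorem key_nrm (hq : 1 ≤ q) {D : Finset (List ℕ)} (h0 : [] ∈ D)
    (hD : ∀ k t, k :: t ∈ D → t ∈ D) {f g h : List ℕ → ℝ} (hfV : f ∈ VV) (hgV : g ∈ VV)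
    {a c : ℝ} (ha : 0 ≤ a) (hc : 0 ≤ c) {σ : List ℕ → ℝ}
    (hf : ∀ t, cm f t = cm f (vv D t)) (hσ : ∀ v, σ v = 1 ∨ σ v = -1)
    (hσ2 : ∀ v s, s <:+ v → σ v * (cm f v - cm f s) < 0 →
      c * MM D g v < a * |cm f v - cm f s| →
      ∃ m, s <:+ m ∧ m <:+ v ∧ c * MM D g v < a * (σ v * (cm f v - cm f m)))
    (hh0 : ∀ t ∈ D, cm h t = 0) (hsign : ∀ t, σ (vv D t) * cm h t ≤ 0)
    (hle : ∀ t, |cm h t| ≤ |df g (vv D t, t)|)
    (hlip : ∀ s t, s <:+ t → s ∉ D → |cm h t - cm h s| ≤ |df g (s, t)|) :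
    nrm q (fun t => a * f t + c * h t) ^ q ≤
      a ^ q * nrm q f ^ q + (1 + 2 ^ q) * c ^ q * nrm q g ^ q := by
  classical
  refine nrm_le hq fun m S hS => ?_
  have hcum : ∀ t, cm (fun t => a * f t + c * h t) t = a * cm f (vv D t) + c * cm h t := by
    intro t
    rw [cm_lin, hf]
  have key : ∀ i, ∃ μ, vv D (S i).1 <:+ μ ∧ μ <:+ vv D (S i).2 ∧
      |df (fun t => a * f t + c * h t) (S i)| ^ q ≤
        a ^ q * (|df f (vv D (S i).1, μ)| ^ q + |df f (μ, vv D (S i).2)| ^ q) +
        c ^ q * |df g (Dout D (S i))| ^ q +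
        (2 * c) ^ q * (if (S i).1 ∈ D ∧ (S i).1 ≠ vv D (S i).2 then
          MM D g (vv D (S i).2) ^ q else 0) := by
    intro i
    rcases hSi : S i with ⟨s, t⟩
    have hst : s <:+ t := by
      have := hS.1 i
      rwa [hSi] at this
    simp only
    have hM0 := MM_nonneg hgV (vv_mem h0 t)
    have hite : 0 ≤ (2 * c) ^ q * (if s ∈ D ∧ s ≠ vv D t then MM D g (vv D t) ^ q else 0) := by
      refine mul_nonneg (by positivity) ?_
      split_ifs
      · positivity
      · exact le_rfl
    have hA : ∀ x : ℝ, 0 ≤ a ^ q * |x| ^ q := fun x => by positivity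
    have hC : ∀ x : ℝ, 0 ≤ c ^ q * |x| ^ q := fun x => by positivity
    by_cases hs : s ∈ D
    · have e1 : df (fun t => a * f t + c * h t) (s, t) =
          a * (cm f (vv D t) - cm f s) + c * cm h t := by
        rw [df, hcum, hcum, hh0 s hs, vv_of_mem hs]; ring
      have e2 : df g (Dout D (s, t)) = df g (vv D t, t) := by
        rw [Dout]; simp only [if_pos hs]
      rw [e1, e2, vv_of_mem hs]
      have hsv : s <:+ vv D t := suffix_vv hs hst
      have hH := hle t
      have hHM := hH.trans (le_MM D hgV t)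
      have hsg := hsign t
      have htri : |a * (cm f (vv D t) - cm f s) + c * cm h t| ≤
          a * |cm f (vv D t) - cm f s| + c * MM D g (vv D t) := by
        refine (abs_add_le _ _).trans ?_
        rw [abs_mul, abs_mul, abs_of_nonneg ha, abs_of_nonneg hc]
        gcongr
      rcases lt_or_ge (σ (vv D t) * (cm f (vv D t) - cm f s)) 0 with hx | hx
      · rcases lt_or_ge (c * MM D g (vv D t)) (a * |cm f (vv D t) - cm f s|) with hb | hb
        · obtain ⟨μ, h1, h2, h3⟩ := hσ2 _ s hsv hx hb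
          refine ⟨μ, h1, h2, ?_⟩
          have e3 : df f (s, μ) = (cm f (vv D t) - cm f s) - (cm f (vv D t) - cm f μ) := by
            rw [df]; ring
          set x := cm f (vv D t) - cm f s
          set β := cm f (vv D t) - cm f μ
          have h4 : a * |x| + c * MM D g (vv D t) ≤ a * |x - β| := by
            have hcM : 0 ≤ c * MM D g (vv D t) := mul_nonneg hc hM0
            rcases hσ (vv D t) with h5 | h5
            · rw [h5, one_mul] at hx h3
              have h6 : -(x - β) ≤ |x - β| := neg_le_abs _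
              rw [abs_of_neg hx]
              nlinarith [mul_le_mul_of_nonneg_left h6 ha]
            · rw [h5] at hx h3
              have h6 : x - β ≤ |x - β| := le_abs_self _
              rw [abs_of_pos (show 0 < x by linarith)]
              nlinarith [mul_le_mul_of_nonneg_left h6 ha]
          have h7 := rpow_le_of_abs_le hq ha (abs_nonneg _) (htri.trans h4)
          rw [e3, mul_add]
          have := hA (df f (μ, vv D t))
          have := hC (df g (vv D t, t))
          linarith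
        · refine ⟨vv D t, hsv, List.suffix_rfl, ?_⟩
          have hne : s ≠ vv D t := by
            rintro h
            rw [← h, sub_self, mul_zero] at hx
            exact lt_irrefl _ hx
          rw [if_pos ⟨hs, hne⟩]
          have h7 := rpow_le_of_abs_le hq (a := 2 * c) (by positivity) hM0
            (htri.trans (by linarith))
          rw [mul_add]
          have := hA (df f (s, vv D t))
          have := hA (df f (vv D t, vv D t))
          have := hC (df g (vv D t, t))
          linarith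
      · refine ⟨vv D t, hsv, List.suffix_rfl, ?_⟩
        have e3 : df f (s, vv D t) = cm f (vv D t) - cm f s := rfl
        rw [e3]
        set x := cm f (vv D t) - cm f s
        set H := cm h t
        have hxH : x * H ≤ 0 := by
          rcases hσ (vv D t) with h | h
          · rw [h] at hx hsg
            exact mul_nonpos_of_nonneg_of_nonpos (by linarith) (by linarith)
          · rw [h] at hx hsg
            exact mul_nonpos_of_nonpos_of_nonneg (by linarith) (by linarith)
        have h5 : (a * x) * (c * H) ≤ 0 := by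
          nlinarith [mul_le_mul_of_nonneg_left hxH (mul_nonneg ha hc)]
        have h6 := abs_add_le_max h5
        rw [mul_add]
        have := hA (df f (vv D t, vv D t))
        have := hA x
        have := hC (df g (vv D t, t))
        rcases le_total |a * x| |c * H| with h7 | h7
        · rw [max_eq_right h7, abs_mul, abs_of_nonneg hc] at h6
          have h8 := rpow_le_of_abs_le hq hc (abs_nonneg _)
            (h6.trans (mul_le_mul_of_nonneg_left hH hc))
          linarith
        · rw [max_eq_left h7, abs_mul, abs_of_nonneg ha] at h6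
          have h8 := rpow_le_of_abs_le hq ha (abs_nonneg _) h6
          linarith
    · have hvv := vv_eq_of_not_mem hD hst hs
      refine ⟨vv D t, by rw [hvv], List.suffix_rfl, ?_⟩
      have e1 : df (fun t => a * f t + c * h t) (s, t) = c * (cm h t - cm h s) := by
        rw [df, hcum, hcum, hvv]; ring
      have e2 : df g (Dout D (s, t)) = df g (s, t) := by
        rw [Dout]; simp only [if_neg hs]
      rw [e1, e2, mul_add]
      have h1 : |c * (cm h t - cm h s)| ≤ c * |df g (s, t)| := by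
        rw [abs_mul, abs_of_nonneg hc]
        exact mul_le_mul_of_nonneg_left (hlip s t hst hs) hc
      have h2 := rpow_le_of_abs_le hq hc (abs_nonneg _) h1
      have := hA (df f (vv D s, vv D t))
      have := hA (df f (vv D t, vv D t))
      linarith
  choose μ h1 h2 h3 using key
  have hA : IsSys (Sum.elim (fun i => (vv D (S i).1, μ i)) fun i => (μ i, vv D (S i).2)) := by
    have o1 : ∀ i u, On u (vv D (S i).1, μ i) → On u (S i) := fun i u hu =>
      (on_Din h0 hD (p := S i) ⟨hu.1.trans (h2 i), hu.2⟩).2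
    have o2 : ∀ i u, On u (μ i, vv D (S i).2) → On u (S i) := fun i u hu =>
      (on_Din h0 hD (p := S i) ⟨hu.1, fun h => hu.2 (h.trans (h1 i))⟩).2
    constructor
    · rintro (i | i)
      · exact h1 i
      · exact h2 i
    · rintro (i | i) (j | j) hij u hi hj
      · exact hS.2 i j (fun h => hij (by rw [h])) u (o1 i u hi) (o1 j u hj)
      · by_cases h : i = j
        · subst h
          exact hj.2 hi.1
        · exact hS.2 i j h u (o1 i u hi) (o2 j u hj)
      · by_cases h : i = j
        · subst h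
          exact hi.2 hj.1
        · exact hS.2 i j h u (o2 i u hi) (o1 j u hj)
      · exact hS.2 i j (fun h => hij (by rw [h])) u (o2 i u hi) (o2 j u hj)
  have hB : IsSys fun i => Dout D (S i) :=
    ⟨fun i => suffix_Dout (hS.1 i), fun i j hij u hi hj =>
      hS.2 i j hij u (on_Dout hD (hS.1 i) hi).2 (on_Dout hD (hS.1 j) hj).2⟩
  have sA := sum_le_nrm hq hfV hA
  rw [Fintype.sum_sum_type] at sA
  simp only [Sum.elim_inl, Sum.elim_inr] at sA
  have sB := sum_le_nrm hq hgV hB
  have sC : ∑ i, (if (S i).1 ∈ D ∧ (S i).1 ≠ vv D (S i).2 then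
      MM D g (vv D (S i).2) ^ q else 0) ≤ nrm q g ^ q := by
    refine le_trans ?_ (sum_MM_le hq hD hgV)
    rw [← sum_filter, ← sum_image (f := fun v => MM D g v ^ q)
      (g := fun i => vv D (S i).2)]
    · refine sum_le_sum_of_subset_of_nonneg ?_ fun v hv _ =>
        Real.rpow_nonneg (MM_nonneg hgV hv) _
      intro v hv
      rw [mem_image] at hv
      obtain ⟨i, _, rfl⟩ := hv
      exact vv_mem h0 _
    · intro i hi j hj hij
      rw [mem_coe, mem_filter] at hi hj
      by_contra hne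
      have hon : ∀ i, ((S i).1 ∈ D ∧ (S i).1 ≠ vv D (S i).2) → On (vv D (S i).2) (S i) := by
        intro i hi
        refine ⟨vv_suffix _, fun h => hi.2 ?_⟩
        have h4 : (S i).1 <:+ vv D (S i).2 := suffix_vv hi.1 (hS.1 i)
        exact h4.eq_of_length (le_antisymm h4.length_le h.length_le)
      have h5 := hon j hj.2
      have hij' : vv D (S i).2 = vv D (S j).2 := hij
      rw [← hij'] at h5
      exact hS.2 i j hne _ (hon i hi.2) h5
  calc ∑ i, |df (fun t => a * f t + c * h t) (S i)| ^ q ≤ ∑ i, (a ^ q *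
        (|df f (vv D (S i).1, μ i)| ^ q + |df f (μ i, vv D (S i).2)| ^ q) +
        c ^ q * |df g (Dout D (S i))| ^ q +
        (2 * c) ^ q * (if (S i).1 ∈ D ∧ (S i).1 ≠ vv D (S i).2 then
          MM D g (vv D (S i).2) ^ q else 0)) := sum_le_sum fun i _ => h3 i
    _ = a ^ q * (∑ i, |df f (vv D (S i).1, μ i)| ^ q + ∑ i, |df f (μ i, vv D (S i).2)| ^ q) +
        c ^ q * ∑ i, |df g (Dout D (S i))| ^ q +
        (2 * c) ^ q * ∑ i, (if (S i).1 ∈ D ∧ (S i).1 ≠ vv D (S i).2 then
          MM D g (vv D (S i).2) ^ q else 0) := by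
      rw [sum_add_distrib, sum_add_distrib, ← mul_sum, ← mul_sum, ← mul_sum, sum_add_distrib]
    _ ≤ a ^ q * nrm q f ^ q + c ^ q * nrm q g ^ q + (2 * c) ^ q * nrm q g ^ q := by
      gcongr
    _ = _ := by
      rw [Real.mul_rpow (by norm_num) hc]; ring

variable [hq : Fact (1 < q)]

/-- Lower `q`-estimate. -/
theorem lower_q {D : Finset (List ℕ)} (h0 : [] ∈ D) (hD : ∀ k t, k :: t ∈ D → t ∈ D) (w : Y q) :
    ‖PD q D w‖ ^ q + ‖w - PD q D w‖ ^ q ≤ ‖w‖ ^ q := by
  rw [norm_eq, norm_eq, norm_eq]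
  have h2 : ∀ (m₂ : ℕ) (S₂ : Fin m₂ → List ℕ × List ℕ), IsSys S₂ →
      ∑ i, |df (w - PD q D w).fn (S₂ i)| ^ q ≤ nrm q w.fn ^ q - nrm q (PD q D w).fn ^ q := by
    intro m₂ S₂ hS₂
    have h3 : nrm q (PD q D w).fn ^ q ≤
        nrm q w.fn ^ q - ∑ i, |df (w - PD q D w).fn (S₂ i)| ^ q := by
      refine nrm_le hq.out.le fun m₁ S₁ hS₁ => ?_
      have hS : IsSys (Sum.elim (fun i => Din D (S₁ i)) fun i => Dout D (S₂ i)) := by
        constructor
        · rintro (i | i)
          · exact vv_suffix_vv h0 (hS₁.1 i)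
          · exact suffix_Dout (hS₂.1 i)
        · rintro (i | i) (j | j) hij u hi hj
          · exact hS₁.2 i j (fun h => hij (by rw [h])) u (on_Din h0 hD hi).2
              (on_Din h0 hD hj).2
          · exact (on_Dout hD (hS₂.1 j) hj).1 (on_Din h0 hD hi).1
          · exact (on_Dout hD (hS₂.1 i) hi).1 (on_Din h0 hD hj).1
          · exact hS₂.2 i j (fun h => hij (by rw [h])) u (on_Dout hD (hS₂.1 i) hi).2
              (on_Dout hD (hS₂.1 j) hj).2
      have h4 := sum_le_nrm hq.out.le w.mem hS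
      rw [Fintype.sum_sum_type] at h4
      simp only [Sum.elim_inl, Sum.elim_inr] at h4
      simp only [df_PD hD]
      have h5 : ∑ i, |df (w - PD q D w).fn (S₂ i)| ^ q = ∑ i, |df w.fn (Dout D (S₂ i))| ^ q :=
        sum_congr rfl fun i _ => by rw [df_sub_PD hD w (hS₂.1 i)]
      rw [h5]
      linarith
    linarith
  have h3 := nrm_le hq.out.le h2
  linarith

/-- Increments of a function on the nodes. -/
def inc' (H : List ℕ → ℝ) : List ℕ → ℝ
  | [] => 0
  | k :: t => H (k :: t) - H t

lemma cm_inc' {H : List ℕ → ℝ} (h0 : H [] = 0) (t : List ℕ) : cm (inc' H) t = H t := by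
  induction t with
  | nil => exact h0.symm
  | cons k t ih => rw [cm_cons, ih, inc']; ring

/-- Two-sided upper `q`-estimate. -/
theorem key_dec {D : Finset (List ℕ)} (h0 : [] ∈ D) (hD : ∀ k t, k :: t ∈ D → t ∈ D)
    (f₀ g : Y q) {a c : ℝ} (ha : 0 ≤ a) (hc : 0 ≤ c) :
    ∃ h₁ h₂ : Y q, g - PD q D g = h₁ - h₂ ∧ PD q D h₁ = 0 ∧ PD q D h₂ = 0 ∧
      ‖a • PD q D f₀ + c • h₁‖ ^ q ≤ a ^ q * ‖PD q D f₀‖ ^ q + (1 + 2 ^ q) * c ^ q * ‖g‖ ^ q ∧
      ‖a • PD q D f₀ + c • h₂‖ ^ q ≤ a ^ q * ‖PD q D f₀‖ ^ q + (1 + 2 ^ q) * c ^ q * ‖g‖ ^ q := by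
  classical
  set f : Y q := PD q D f₀ with hf
  set g' : Y q := g - PD q D g with hg'
  have hg'D : ∀ t ∈ D, g'.fn t = 0 := fun t ht => by rw [hg', fn_sub, PD_pos g ht, sub_self]
  set G : List ℕ → ℝ := fun t => cm g'.fn t with hG
  have hG1 : ∀ t, G t = df g.fn (vv D t, t) := by
    intro t
    simp only [hG, hg']
    rw [cm_sub, cm_PD hD, df]
  have hGD : ∀ t ∈ D, G t = 0 := by
    intro t ht
    rw [hG1, vv_of_mem ht, df]
    ring
  have hGcons : ∀ k t, G (k :: t) = G t + g'.fn (k :: t) := fun k t => rfl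
  choose τ hτ1 hτ2 using fun v => exists_sign (cm f.fn) (cm f.fn v) a (c * MM D g.fn v) v
  set σ : List ℕ → ℝ := fun t => τ (vv D t) with hσ
  have hσ1 : ∀ t, σ t = 1 ∨ σ t = -1 := fun t => hτ1 _
  have hσσ : ∀ t, σ t * σ t = 1 := fun t => by rcases hσ1 t with h | h <;> rw [h] <;> norm_num
  have hσabs : ∀ t x, |σ t * x| = |x| := fun t x => by
    rw [abs_mul]; rcases hσ1 t with h | h <;> rw [h] <;> simp
  have gen : ∀ e : ℝ, (e = 1 ∨ e = -1) →
      ∃ h : Y q, (∀ t, h.fn t = inc' (fun t => -(σ t * max (-(e * (σ t * G t))) 0)) t) ∧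
        PD q D h = 0 ∧
        ‖a • f + c • h‖ ^ q ≤ a ^ q * ‖f‖ ^ q + (1 + 2 ^ q) * c ^ q * ‖g‖ ^ q := by
    intro e he
    set H : List ℕ → ℝ := fun t => -(σ t * max (-(e * (σ t * G t))) 0) with hH
    have habse : ∀ y : ℝ, |e * y| = |y| := fun y => by
      rw [abs_mul]; rcases he with h | h <;> rw [h] <;> simp
    have hHD : ∀ t ∈ D, H t = 0 := by
      intro t ht
      simp only [hH, hGD t ht]
      simp
    have hHle : ∀ t, |H t| ≤ |G t| := by
      intro t
      simp only [hH]
      rw [abs_neg, hσabs]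
      have h1 := abs_max_sub_max_le_abs (-(e * (σ t * G t))) 0 0
      rw [max_self, sub_zero, sub_zero, abs_neg, habse, hσabs] at h1
      exact h1
    have hlip : ∀ s t, s <:+ t → s ∉ D → |H t - H s| ≤ |G t - G s| := by
      intro s t hst hs
      have hσst : σ s = σ t := by
        simp only [hσ]
        rw [vv_eq_of_not_mem hD hst hs]
      simp only [hH]
      rw [hσst, neg_sub_neg, ← mul_sub, hσabs, abs_sub_comm]
      have h1 := abs_max_sub_max_le_abs (-(e * (σ t * G t))) (-(e * (σ t * G s))) 0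
      rw [neg_sub_neg, abs_sub_comm (e * (σ t * G s)), ← mul_sub, ← mul_sub, habse, hσabs] at h1
      exact h1
    have hinc : ∀ t, |inc' H t| ≤ |g'.fn t| := by
      intro t
      cases t with
      | nil => rw [inc', abs_zero]; exact abs_nonneg _
      | cons k t =>
        rw [inc']
        have h1 : |H (k :: t) - H t| ≤ |G (k :: t) - G t| := by
          by_cases ht : t ∈ D
          · rw [hHD t ht, hGD t ht, sub_zero, sub_zero]
            exact hHle _
          · exact hlip t (k :: t) (List.suffix_cons k t) ht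
        rwa [hGcons, add_sub_cancel_left] at h1
    have hz : ∀ t, g'.fn t = 0 → inc' H t = 0 := fun t ht => by
      have h1 := hinc t
      rw [ht, abs_zero] at h1
      exact abs_nonpos_iff.1 h1
    have hcumh : ∀ t, cm (inc' H) t = H t := cm_inc' (hHD [] h0)
    refine ⟨Y.mk q (inc' H) (mem_VV_of_le g'.mem hz), fun t => rfl, Y.ext fun t => ?_, ?_⟩
    · by_cases ht : t ∈ D
      · rw [PD_pos _ ht]
        exact hz t (hg'D t ht)
      · rw [PD_neg _ ht, fn_zero]
    · rw [norm_eq, norm_eq, norm_eq]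
      refine key_nrm hq.out.le h0 hD f.mem g.mem ha hc (σ := τ) (h := inc' H)
        (fun t => cm_supp (fun t ht => PD_neg f₀ ht) t) hτ1
        (fun v s => hτ2 v s) (fun t ht => ?_) (fun t => ?_) (fun t => ?_)
        (fun s t hst hs => ?_)
      · rw [hcumh, hHD t ht]
      · rw [hcumh]
        simp only [hH]
        have h2 : 0 ≤ max (-(e * (σ t * G t))) 0 := le_max_right _ _
        have h3 : τ (vv D t) * -(σ t * max (-(e * (σ t * G t))) 0) =
            -((σ t * σ t) * max (-(e * (σ t * G t))) 0) := by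
          simp only [hσ]; ring
        rw [h3, hσσ]
        linarith
      · rw [hcumh, ← hG1]
        exact hHle t
      · rw [hcumh, hcumh]
        have h1 := hlip s t hst hs
        have h2 : G t - G s = df g.fn (s, t) := by
          rw [hG1, hG1, df, df, df]
          simp only
          rw [vv_eq_of_not_mem hD hst hs]
          ring
        rwa [h2] at h1
  obtain ⟨h₁, h1a, h1b, h1c⟩ := gen 1 (Or.inl rfl)
  obtain ⟨h₂, h2a, h2b, h2c⟩ := gen (-1) (Or.inr rfl)
  refine ⟨h₁, h₂, Y.ext fun t => ?_, h1b, h2b, h1c, h2c⟩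
  rw [fn_sub h₁ h₂, h1a, h2a]
  have hmm : ∀ t, -(σ t * max (-(1 * (σ t * G t))) 0) - -(σ t * max (-(-1 * (σ t * G t))) 0)
      = G t := by
    intro t
    have h3 : max (-(-1 * (σ t * G t))) 0 - max (-(1 * (σ t * G t))) 0 = σ t * G t := by
      rcases le_total 0 (σ t * G t) with h | h
      · rw [max_eq_left (by linarith), max_eq_right (by linarith)]; ring
      · rw [max_eq_right (by linarith), max_eq_left (by linarith)]; ring
    calc _ = σ t * (max (-(-1 * (σ t * G t))) 0 - max (-(1 * (σ t * G t))) 0) := by ring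
      _ = G t := by rw [h3, ← mul_assoc, hσσ, one_mul]
  cases t with
  | nil =>
    rw [inc', inc', sub_zero]
    exact hg'D [] h0
  | cons k t =>
    rw [inc', inc']
    have h3 := hmm (k :: t)
    have h4 := hmm t
    have h5 := hGcons k t
    linarith

end Vale.Agent.N069
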