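import Vale.Agent.P069.Bdl.B1
import Vale.Agent.P069.JT.Beta
import Mathlib.Analysis.Normed.Module.WeakDual

/-!
# A midpoint modulus which is not `o(t)` forces the Schur property
-/

open Filter Topology TopologicalSpace

namespace Vale.Agent.N069

open Vale.Agent.P069

variable {X : Type*} [NormedAddCommGroup X] [NormedSpace ℝ X]

lemma one_step {N : Seminorm ℝ X} {c : ℝ}
    (h : ∀ δ : ℝ, 0 < δ → ∃ t : ℝ, 0 < t ∧ t < δ ∧ ((c * t : ℝ) : EReal) < amucModulus N t)
    {x : X} (hx : 0 < N x) {a : ℝ} (ha : 0 < a) :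
    ∃ F : Submodule ℝ X, IsCofinite F ∧ ∀ y ∈ F, N y = 1 →
      N x + c * a ≤ N (x + a • y) ∨ N x + c * a ≤ N (x + a • (-y)) := by
  obtain ⟨x', hx'⟩ : ∃ x' : X, x' = (N x)⁻¹ • x := ⟨_, rfl⟩
  have hx'1 : N x' = 1 := by
    rw [hx', map_smul_eq_mul, Real.norm_of_nonneg (by positivity)]
    field_simp
  obtain ⟨s, hs⟩ : ∃ s : ℝ, s = a / N x := ⟨_, rfl⟩
  have hs0 : 0 < s := by rw [hs]; positivity
  obtain ⟨t, ht0, hts, ht⟩ := h s hs0
  have h1 := ht.trans_le (iInf_le _ (⟨x', hx'1⟩ : {x : X // N x = 1}))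
  obtain ⟨F, hF⟩ := lt_iSup_iff.1 h1
  refine ⟨F.1, F.2, fun y hyF hy => ?_⟩
  have h2 := hF.trans_le (iInf_le _ (⟨y, hyF, hy⟩ : {z : X // z ∈ F.1 ∧ N z = 1}))
  have h3 : c * t < max (N (x' + t • y)) (N (x' - t • y)) - 1 := by exact_mod_cast h2
  have key : ∀ z : X, 1 + c * t < N (x' + t • z) → N x + c * a ≤ N (x + a • z) := by
    intro z hz
    have hr0 : 0 < t / s := by positivity
    have hr1 : t / s ≤ 1 := (div_le_one hs0).2 hts.le
    have h9 : x' + t • z = (1 - t / s) • x' + (t / s) • (x' + s • z) := by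
      rw [smul_add, smul_smul, sub_smul, one_smul, div_mul_cancel₀ _ hs0.ne']
      abel
    have h10 : N (x' + t • z) ≤ (1 - t / s) + (t / s) * N (x' + s • z) := by
      rw [h9]
      refine (map_add_le_add N _ _).trans ?_
      rw [map_smul_eq_mul, map_smul_eq_mul, hx'1, Real.norm_of_nonneg hr0.le,
        Real.norm_of_nonneg (by linarith), mul_one]
    have h11 : 1 + c * s ≤ N (x' + s • z) := by
      have e : c * t = (t / s) * (c * s) := by field_simp
      refine le_of_mul_le_mul_left ?_ hr0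
      nlinarith
    have h12 : x + a • z = N x • (x' + s • z) := by
      rw [hx', hs, smul_add, smul_smul, smul_smul, mul_inv_cancel₀ hx.ne', one_smul,
        mul_div_cancel₀ _ hx.ne']
    have h13 : N x * (c * s) = c * a := by rw [hs]; field_simp
    rw [h12, map_smul_eq_mul, Real.norm_of_nonneg hx.le]
    nlinarith [mul_le_mul_of_nonneg_left h11 hx.le]
  rcases le_total (N (x' + t • y)) (N (x' - t • y)) with h4 | h4
  · rw [max_eq_right h4] at h3
    refine Or.inr (key (-y) ?_)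
    rw [smul_neg, ← sub_eq_add_neg]
    linarith
  · rw [max_eq_left h4] at h3
    exact Or.inl (key y (by linarith))

lemma one_core [CompleteSpace X] {N : Seminorm ℝ X} (hN : IsEquivNorm N) {c : ℝ} (hc : 0 < c)
    (h : ∀ δ : ℝ, 0 < δ → ∃ t : ℝ, 0 < t ∧ t < δ ∧ ((c * t : ℝ) : EReal) < amucModulus N t)
    (G : ℕ → X → Prop) (hG : ∀ j y, G j y → G j (-y))
    (hch : ∀ j (F : Submodule ℝ X), IsCofinite F → ∃ y ∈ F, N y = 1 ∧ G j y) :
    ∃ (y : ℕ → X) (φ : StrongDual ℝ X), (∀ j, G j (y j)) ∧ ∃ᶠ j in atTop, c / 2 ≤ φ (y j) := by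
  obtain ⟨c₀, C, hc₀, hC, hN⟩ := hN
  have H : ∀ (n : ℕ) (x : {x : X // 1 ≤ N x}), ∃ y, G n y ∧ N y = 1 ∧
      N x.1 + c * (1 / 2) ^ n ≤ N (x.1 + ((1 / 2 : ℝ) ^ n) • y) := by
    intro n x
    obtain ⟨F, hF, hFy⟩ := one_step h (lt_of_lt_of_le one_pos x.2)
      (show (0 : ℝ) < (1 / 2) ^ n by positivity)
    obtain ⟨y, hyF, hy1, hy2⟩ := hch n F hF
    rcases hFy y hyF hy1 with h1 | h1
    · exact ⟨y, hy2, hy1, h1⟩
    · exact ⟨-y, hG n y hy2, by rw [map_neg_eq_map, hy1], h1⟩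
  choose Yf hY1 hY2 hY3 using H
  obtain ⟨x₀, _, hx₀, _⟩ := hch 0 ⊤ ⟨by simp, inferInstance⟩
  let xs : ℕ → {x : X // 1 ≤ N x} := fun n => Nat.rec ⟨x₀, hx₀.ge⟩
    (fun n x => ⟨x.1 + ((1 / 2 : ℝ) ^ n) • Yf n x, by
      have h1 := hY3 n x
      have h2 := x.2
      have h3 : 0 < c * (1 / 2 : ℝ) ^ n := by positivity
      linarith⟩) n
  set y : ℕ → X := fun n => Yf n (xs n) with hy
  have hxs : ∀ n, (xs (n + 1)).1 = (xs n).1 + ((1 / 2 : ℝ) ^ n) • y n := fun n => rfl
  have hcau : CauchySeq fun n => (xs n).1 := by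
    refine cauchySeq_of_le_geometric (1 / 2) (1 / c₀) (by norm_num) fun n => ?_
    rw [dist_comm, dist_eq_norm, hxs, add_sub_cancel_left, norm_smul,
      Real.norm_of_nonneg (by positivity), mul_comm]
    refine mul_le_mul_of_nonneg_right ?_ (by positivity)
    rw [le_div_iff₀ hc₀, mul_comm]
    exact (hN _).1.trans (hY2 n (xs n)).le
  obtain ⟨z, hz⟩ := cauchySeq_tendsto_of_complete hcau
  have hNc : Continuous N := by
    refine (LipschitzWith.of_dist_le_mul (K := C.toNNReal) fun u v => ?_).continuous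
    rw [dist_eq_norm, dist_eq_norm, Real.coe_toNNReal _ hC.le]
    exact (N.norm_sub_map_le_sub u v).trans (hN _).2
  obtain ⟨φ, hφ1, hφ2⟩ := JT.exists_norming (fun x => (hN x).2) z
  refine ⟨y, φ, fun j => hY1 j (xs j), ?_⟩
  by_contra hcon
  rw [not_frequently, eventually_atTop] at hcon
  obtain ⟨n, hn⟩ := hcon
  have hpow : Tendsto (fun m : ℕ => ((1 / 2 : ℝ)) ^ m) atTop (𝓝 0) :=
    tendsto_pow_atTop_nhds_zero_of_lt_one (by norm_num) (by norm_num)
  have h1 : ∀ m, n ≤ m → N (xs n).1 + 2 * c * (1 / 2) ^ n ≤ N (xs m).1 + 2 * c * (1 / 2) ^ m := by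
    intro m hm
    induction m, hm using Nat.le_induction with
    | base => exact le_rfl
    | succ m _ ih =>
      have := hY3 m (xs m)
      rw [hxs, pow_succ]
      linarith
  have h2 : ∀ m, n ≤ m → φ (xs m).1 + c * (1 / 2) ^ m ≤ φ (xs n).1 + c * (1 / 2) ^ n := by
    intro m hm
    induction m, hm using Nat.le_induction with
    | base => exact le_rfl
    | succ m hm ih =>
      have h3 := not_le.1 (hn m hm)
      have h4 : (0 : ℝ) < (1 / 2) ^ m := by positivity
      rw [hxs, map_add, map_smul, smul_eq_mul, pow_succ]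
      nlinarith
  have l1 : Tendsto (fun m => N (xs m).1 + 2 * c * (1 / 2) ^ m) atTop (𝓝 (N z + 2 * c * 0)) :=
    ((hNc.tendsto z).comp hz).add (hpow.const_mul _)
  have l2 : Tendsto (fun m => φ (xs m).1 + c * (1 / 2) ^ m) atTop (𝓝 (φ z + c * 0)) :=
    ((φ.continuous.tendsto z).comp hz).add (hpow.const_mul _)
  have k1 := ge_of_tendsto l1 (eventually_atTop.2 ⟨n, h1⟩)
  have k2 := le_of_tendsto l2 (eventually_atTop.2 ⟨n, h2⟩)
  have k3 := hφ2 (xs n).1
  have k4 : 0 < c * (1 / 2 : ℝ) ^ n := by positivity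
  linarith

/-- If some weakly null sequence stays away from zero, the midpoint modulus of every equivalent
norm is `o(t)`. -/
theorem little_o_of_weakly_null [CompleteSpace X] {x : ℕ → X} {a : ℝ} (ha : 0 < a)
    (hx : ∀ i, a ≤ ‖x i‖) (hw : ∀ f : StrongDual ℝ X, Tendsto (fun i => f (x i)) atTop (𝓝 0))
    {N : Seminorm ℝ X} (hN : IsEquivNorm N) {c : ℝ} (hc : 0 < c) :
    ∃ δ : ℝ, 0 < δ ∧ ∀ t : ℝ, 0 < t → t < δ → amucModulus N t ≤ ((c * t : ℝ) : EReal) := by
  by_contra hcon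
  push Not at hcon
  obtain ⟨c₀, C, hc₀, hC, hN'⟩ := id hN
  set B : ℝ := 2 / (c₀ * a) with hB
  have hB0 : 0 < B := by positivity
  obtain ⟨y, φ, hy, hfr⟩ := one_core hN hc hcon
    (fun j y => ∃ i, j ≤ i ∧ ∃ b : ℝ, |b| ≤ B ∧ ‖y - b • x i‖ ≤ B * (1 / ((j : ℝ) + 1)))
    (by
      rintro j y ⟨i, hi, b, hb1, hb2⟩
      refine ⟨i, hi, -b, by rwa [abs_neg], ?_⟩
      rw [← norm_neg, neg_smul, neg_sub_neg, neg_sub]
      exact hb2)
    (by
      intro j F hF
      obtain ⟨i, z, hzF, hz⟩ := exists_near hF (y := fun i => x (i + j))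
        (fun f => (hw f).comp (tendsto_add_atTop_nat j))
        (show 0 < min (a / 2) (1 / ((j : ℝ) + 1)) from lt_min (half_pos ha) (by positivity))
      have h1 : a / 2 ≤ ‖z‖ := by
        have h2 := norm_sub_norm_le (x (i + j)) z
        have h3 := hx (i + j)
        have h4 := hz.trans_le (min_le_left _ _)
        linarith
      have h2 : c₀ * a / 2 ≤ N z := by
        refine le_trans ?_ (hN' z).1
        rw [mul_div_assoc]
        exact mul_le_mul_of_nonneg_left h1 hc₀.le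
      have h3 : 0 < N z := lt_of_lt_of_le (by positivity) h2
      have h4 : (N z)⁻¹ ≤ B := by
        rw [hB, inv_eq_one_div, div_le_div_iff₀ h3 (by positivity)]
        linarith
      refine ⟨(N z)⁻¹ • z, F.smul_mem _ hzF, ?_, i + j, Nat.le_add_left _ _, (N z)⁻¹, ?_, ?_⟩
      · rw [map_smul_eq_mul, Real.norm_of_nonneg (by positivity), inv_mul_cancel₀ h3.ne']
      · rwa [abs_of_pos (by positivity)]
      · rw [← smul_sub, norm_smul, Real.norm_of_nonneg (by positivity), norm_sub_rev]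
        exact mul_le_mul h4 (hz.le.trans (min_le_right _ _)) (norm_nonneg _) hB0.le)
  choose i hi b hb1 hb2 using hy
  have hi' : Tendsto i atTop atTop := tendsto_atTop_mono hi tendsto_id
  have l1 : Tendsto (fun j => B * |φ (x (i j))| + ‖φ‖ * (B * (1 / ((j : ℝ) + 1)))) atTop
      (𝓝 (B * |0| + ‖φ‖ * (B * 0))) :=
    ((((hw φ).comp hi').abs).const_mul B).add
      ((tendsto_one_div_add_atTop_nhds_zero_nat.const_mul B).const_mul ‖φ‖)
  rw [abs_zero, mul_zero, mul_zero, add_zero] at l1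
  obtain ⟨j, hj1, hj2⟩ := (hfr.and_eventually (l1.eventually (gt_mem_nhds (half_pos hc)))).exists
  have e : φ (y j) = b j * φ (x (i j)) + φ (y j - b j • x (i j)) := by
    rw [map_sub, map_smul, smul_eq_mul]; ring
  have h1 : b j * φ (x (i j)) ≤ B * |φ (x (i j))| := by
    refine (le_abs_self _).trans ?_
    rw [abs_mul]
    exact mul_le_mul_of_nonneg_right (hb1 j) (abs_nonneg _)
  have h2 : φ (y j - b j • x (i j)) ≤ ‖φ‖ * (B * (1 / ((j : ℝ) + 1))) :=
    (le_abs_self _).trans ((φ.le_opNorm _).trans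
      (mul_le_mul_of_nonneg_left (hb2 j) (norm_nonneg _)))
  linarith

/-- An infinite-dimensional reflexive space contains a normalized weakly null sequence. -/
theorem exists_weakly_null (hF : ¬ FiniteDimensional ℝ X) (hR : IsReflexive X) :
    ∃ x : ℕ → X, (∀ i, 1 ≤ ‖x i‖) ∧
      ∀ f : StrongDual ℝ X, Tendsto (fun i => f (x i)) atTop (𝓝 0) := by
  let b := Module.Basis.ofVectorSpace ℝ X
  have hinf : Infinite (Module.Basis.ofVectorSpaceIndex ℝ X) := by
    by_contra h
    rw [not_infinite_iff_finite] at h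
    exact hF (Module.Finite.of_basis b)
  let e := Infinite.natEmbedding (Module.Basis.ofVectorSpaceIndex ℝ X)
  have hli : LinearIndependent ℝ (fun n => b (e n)) := b.linearIndependent.comp e e.injective
  set W : Submodule ℝ X := Submodule.span ℝ (Set.range fun n => b (e n)) with hW
  have hWF : ¬ FiniteDimensional ℝ W := fun h =>
    Module.Finite.not_linearIndependent_of_infinite (R := ℝ) (M := W)
      (fun n => ⟨b (e n), Submodule.subset_span ⟨n, rfl⟩⟩)
      (LinearIndependent.of_comp W.subtype hli)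
  have hsep : IsSeparable (W : Set X) := (Set.countable_range _).isSeparable.span
  obtain ⟨S, hSc, hS⟩ := hsep
  obtain ⟨d, hd⟩ := (hSc.insert 0).exists_eq_range (Set.insert_nonempty _ _)
  choose ψ hψ1 hψ2 using fun i => exists_dual_vector'' ℝ (d i)
  have hy : ∀ j : ℕ, ∃ y ∈ W, ‖y‖ = 1 ∧ ∀ i, i < j → ψ i y = 0 := by
    intro j
    let g : W →ₗ[ℝ] (Fin j → ℝ) := LinearMap.pi fun i => (ψ i.1).toLinearMap.comp W.subtype
    have h1 : ¬ Function.Injective g := fun h => hWF (FiniteDimensional.of_injective g h)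
    rw [← LinearMap.ker_eq_bot, ← ne_eq, Submodule.ne_bot_iff] at h1
    obtain ⟨v, hv1, hv2⟩ := h1
    have h2 : (v : X) ≠ 0 := fun h => hv2 (Subtype.ext h)
    have h3 : 0 < ‖(v : X)‖ := norm_pos_iff.2 h2
    refine ⟨‖(v : X)‖⁻¹ • v, W.smul_mem _ v.2, ?_, fun i hi => ?_⟩
    · rw [norm_smul, norm_inv, norm_norm, inv_mul_cancel₀ h3.ne']
    · have h4 : g v ⟨i, hi⟩ = 0 := by rw [LinearMap.mem_ker.1 hv1]; rfl
      have h5 : ψ i v = 0 := h4
      rw [map_smul, h5, smul_zero]
  choose y hy1 hy2 hy3 using hy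
  refine ⟨y, fun i => (hy2 i).ge, fun f => ?_⟩
  refine tendsto_iff_ultrafilter _ _ _ |>.2 fun U hU => ?_
  let J : ℕ → WeakDual ℝ (StrongDual ℝ X) := fun j =>
    StrongDual.toWeakDual (NormedSpace.inclusionInDoubleDual ℝ X (y j))
  have hK := WeakDual.isCompact_closedBall (𝕜 := ℝ) (0 : StrongDual ℝ (StrongDual ℝ X)) 1
  obtain ⟨ξ, _, hξ⟩ := hK.ultrafilter_le_nhds (U.map J) (by
    rw [Ultrafilter.coe_map, le_principal_iff, mem_map]
    refine univ_mem' fun j => ?_
    change NormedSpace.inclusionInDoubleDual ℝ X (y j) ∈ Metric.closedBall 0 1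
    exact (mem_closedBall_zero_iff (E := StrongDual ℝ (StrongDual ℝ X))).2
      ((NormedSpace.double_dual_bound ℝ X (y j)).trans (hy2 j).le))
  obtain ⟨z, hz⟩ := hR (WeakDual.toStrongDual ξ)
  have hlim : ∀ g : StrongDual ℝ X, Tendsto (fun j => g (y j)) U (𝓝 (g z)) := by
    intro g
    have h1 : Tendsto J U (𝓝 ξ) := hξ
    have h2 := ((WeakDual.eval_continuous g).tendsto ξ).comp h1
    have h3 : ξ g = g z := by
      have : (NormedSpace.inclusionInDoubleDual ℝ X z) g = (WeakDual.toStrongDual ξ) g := by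
        rw [hz]
      exact this.symm
    rw [h3] at h2
    exact h2
  have hzW : z ∈ closure (W : Set X) := by
    by_contra hcon
    obtain ⟨g, u, hg1, hg2⟩ := geometric_hahn_banach_point_closed
      (W.convex.closure) isClosed_closure hcon
    have h1 : u ≤ g z := ge_of_tendsto' (hlim g) fun j => (hg2 _ (subset_closure (hy1 j))).le
    linarith
  have hψz : ∀ i, ψ i z = 0 := by
    intro i
    refine tendsto_nhds_unique (hlim (ψ i)) (tendsto_const_nhds.congr' ?_)
    filter_upwards [hU (eventually_gt_atTop i)] with j hj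
    exact (hy3 j i hj).symm
  have hz0 : z = 0 := by
    refine norm_le_zero_iff.1 (le_of_forall_pos_le_add fun ε hε => ?_)
    have h1 : z ∈ closure S := by
      have := closure_mono hS hzW
      rwa [closure_closure] at this
    obtain ⟨s, hs1, hs2⟩ := Metric.mem_closure_iff.1 h1 (ε / 2) (half_pos hε)
    have h2 : s ∈ Set.range d := hd ▸ Set.mem_insert_of_mem _ hs1
    obtain ⟨i, rfl⟩ := h2
    rw [dist_eq_norm] at hs2
    have h3 : ‖d i‖ ≤ ‖z - d i‖ := by
      have h4 : ψ i (d i - z) = ‖d i‖ := by rw [map_sub, hψz, sub_zero]; exact hψ2 i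
      rw [← h4, norm_sub_rev]
      exact (le_abs_self _).trans (((ψ i).le_opNorm _).trans
        (mul_le_of_le_one_left (norm_nonneg _) (hψ1 i)))
    have h5 := norm_sub_norm_le z (d i)
    linarith
  have := hlim f
  rwa [hz0, map_zero] at this

end Vale.Agent.N069
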