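import Vale.Agent.N069.Mod
import Vale.Agent.N069.One

/-!
# Assembly
-/

open TopologicalSpace Vale.Agent.P069 Vale.Agent.P069.H778 Vale.Agent.P069.JT

namespace Vale.Agent.N069

theorem main :
    (¬ ∀ (X : Type) [NormedAddCommGroup X] [NormedSpace ℝ X] [CompleteSpace X],
      ¬ FiniteDimensional ℝ X → IsReflexive X → AMUCRenormable X → AUCRenormable X) ∧
    (∀ p : ℝ, 1 < p →
      ∃ (Z : Type) (_ : NormedAddCommGroup Z) (_ : NormedSpace ℝ Z) (c : ℝ), 0 < c ∧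
        CompleteSpace Z ∧ SeparableSpace Z ∧ ¬ FiniteDimensional ℝ Z ∧ IsReflexive Z ∧
        ¬ AUCRenormable Z ∧
        (∀ t : ℝ, 0 < t →
          (((1 + c * t ^ p) ^ (1 / p) - 1 : ℝ) : EReal) ≤ amucModulus (normSeminorm ℝ Z) t ∧
          ausModulus (normSeminorm ℝ Z) t ≤ (((1 + t ^ p) ^ (1 / p) - 1 : ℝ) : EReal)) ∧
        ∀ (k : ℕ) (D : ℝ), EmbedsWith (diamond k) Z D → (1 + c * k) ^ (1 / p) ≤ D) ∧
    ∀ (X : Type) [NormedAddCommGroup X] [NormedSpace ℝ X] [CompleteSpace X],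
      ¬ FiniteDimensional ℝ X → IsReflexive X → ∀ N : Seminorm ℝ X, IsEquivNorm N →
        ∀ ε : ℝ, 0 < ε → ∃ δ : ℝ, 0 < δ ∧ ∀ t : ℝ, 0 < t → t < δ →
          amucModulus N t ≤ ((ε * t : ℝ) : EReal) := by
  have key : ∀ p : ℝ, 1 < p →
      ∃ (Z : Type) (_ : NormedAddCommGroup Z) (_ : NormedSpace ℝ Z) (c : ℝ), 0 < c ∧
        CompleteSpace Z ∧ SeparableSpace Z ∧ ¬ FiniteDimensional ℝ Z ∧ IsReflexive Z ∧
        ¬ AUCRenormable Z ∧ IsAMUC (normSeminorm ℝ Z) ∧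
        (∀ t : ℝ, 0 < t →
          (((1 + c * t ^ p) ^ (1 / p) - 1 : ℝ) : EReal) ≤ amucModulus (normSeminorm ℝ Z) t ∧
          ausModulus (normSeminorm ℝ Z) t ≤ (((1 + t ^ p) ^ (1 / p) - 1 : ℝ) : EReal)) ∧
        ∀ (k : ℕ) (D : ℝ), EmbedsWith (diamond k) Z D → (1 + c * k) ^ (1 / p) ≤ D := by
    intro p hp
    have hpq := Real.HolderConjugate.conjExponent hp
    have : Fact (1 < p.conjExponent) := ⟨hpq.symm.lt⟩
    obtain ⟨κ, hκ, hD⟩ := N069.dense_TE hpq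
    have hN : ¬ AUCRenormable (StrongDual ℝ (N069.Y p.conjExponent)) :=
      not_aucRenormable (κ := 1) one_pos N069.goodTree_X
    exact ⟨StrongDual ℝ (N069.Y p.conjExponent), inferInstance, inferInstance, κ, hκ,
      inferInstance, N069.separable_X, fun _ => hN aucRenormable_of_finiteDimensional,
      N069.isReflexive_X, hN, N069.isAMUC_of hpq.pos hκ hD,
      fun t ht => ⟨N069.le_amuc hpq.pos hκ hD ht, N069.aus_le hpq.pos hD ht⟩,
      N069.diamond_lower hpq.pos hκ hD⟩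
  refine ⟨fun h => ?_, fun p hp => ?_, fun X _ _ _ hF hR N hN ε hε => ?_⟩
  · obtain ⟨Z, _, _, _, _, _, _, hF, hR, hN, hA, _⟩ := key 2 one_lt_two
    exact hN (h Z hF hR ⟨normSeminorm ℝ Z, isEquivNorm_norm, hA⟩)
  · obtain ⟨Z, i1, i2, c, h1, h2, h3, h4, h5, h6, _, h8⟩ := key p hp
    exact ⟨Z, i1, i2, c, h1, h2, h3, h4, h5, h6, h8⟩
  · obtain ⟨x, hx, hw⟩ := N069.exists_weakly_null hF hR
    exact N069.little_o_of_weakly_null one_pos hx hw hN hε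

end Vale.Agent.N069
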