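import Vale.Agent.N069.Refl
import Vale.Agent.P069.JT.Defs
import Vale.Agent.P069.H778.Mid

/-!
# The moduli and the diamonds
-/

open Filter Topology

namespace Vale.Agent.N069

open Vale.Agent.P069 Vale.Agent.P069.JT Vale.Agent.P069.H778

variable {X : Type*} [NormedAddCommGroup X] [NormedSpace ℝ X] {p κ : ℝ}

lemma exists_small {f : ℝ → ℝ} (hf : Continuous f) (h : 0 < f 0) :
    ∃ η : ℝ, 0 < η ∧ η < 1 ∧ 0 < f η := by
  have h1 : ∀ᶠ η in 𝓝[>] (0 : ℝ), 0 < f η :=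
    ((hf.tendsto 0).eventually (lt_mem_nhds h)).filter_mono nhdsWithin_le_nhds
  obtain ⟨η, h2, h3⟩ := (h1.and (Ioo_mem_nhdsGT (show (0 : ℝ) < 1 by norm_num))).exists
  exact ⟨η, h3.1, h3.2, h2⟩

lemma root_le {a m : ℝ} (hp : 0 < p) (ha : 0 ≤ a) (hm : 0 ≤ m) (h : a ≤ m ^ p) :
    a ^ (1 / p) ≤ m := by
  have := Real.rpow_le_rpow ha h (show 0 ≤ 1 / p by positivity)
  rwa [← Real.rpow_mul hm, mul_one_div_cancel hp.ne', Real.rpow_one] at this

lemma le_root {a m : ℝ} (hp : 0 < p) (hm : 0 ≤ m) (h : m ^ p ≤ a) : m ≤ a ^ (1 / p) := by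
  have := Real.rpow_le_rpow (by positivity) h (show 0 ≤ 1 / p by positivity)
  rwa [← Real.rpow_mul hm, mul_one_div_cancel hp.ne', Real.rpow_one] at this

theorem le_amuc (hp : 0 < p) (hκ : 0 < κ) (hD : Dense {u : X | TE p κ u}) {t : ℝ} (ht : 0 < t) :
    (((1 + κ * t ^ p) ^ (1 / p) - 1 : ℝ) : EReal) ≤ amucModulus (normSeminorm ℝ X) t := by
  refine le_iInf fun x => ?_
  have hx : ‖x.1‖ = 1 := x.2
  refine EReal.ge_of_forall_gt_iff_ge.1 fun r hr => ?_
  have hr' : r < (1 + κ * t ^ p) ^ (1 / p) - 1 := by exact_mod_cast hr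
  obtain ⟨η, hη, hη1, hη2⟩ := exists_small
    (f := fun η => ((1 - η) ^ p + κ * t ^ p) ^ (1 / p) - η - 1 - r)
    ((((((continuous_const.sub continuous_id).rpow_const fun _ => Or.inr hp.le).add
      continuous_const).rpow_const fun _ => Or.inr (by positivity)).sub continuous_id).sub
      continuous_const |>.sub continuous_const)
    (by simp only [sub_zero, Real.one_rpow]; linarith)
  obtain ⟨u, ⟨F, hF, hFu⟩, hux⟩ := Metric.mem_closure_iff.1 (hD x.1) η hη
  refine le_iSup_of_le ⟨F, hF⟩ (le_iInf fun y => ?_)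
  have hy : ‖y.1‖ = 1 := y.2.2
  have h1 := (hFu (t • y.1) (F.smul_mem t y.2.1)).1
  have h2 : ‖t • y.1‖ = t := by rw [norm_smul, hy, Real.norm_of_nonneg ht.le, mul_one]
  rw [h2] at h1
  have hxu : ‖x.1 - u‖ < η := by rwa [dist_eq_norm] at hux
  have hun : 1 - η ≤ ‖u‖ := by
    have := norm_sub_norm_le x.1 u
    rw [hx] at this
    linarith
  have h3 : (1 - η) ^ p ≤ ‖u‖ ^ p := Real.rpow_le_rpow (by linarith) hun hp.le
  have h4 : 0 ≤ (1 - η) ^ p := Real.rpow_nonneg (by linarith) _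
  have hM3 : ((1 - η) ^ p + κ * t ^ p) ^ (1 / p) ≤ max ‖u + t • y.1‖ ‖u - t • y.1‖ :=
    root_le hp (by positivity) (le_trans (norm_nonneg _) (le_max_left _ _)) (by linarith)
  have f1 : ‖u + t • y.1‖ ≤ ‖x.1 + t • y.1‖ + η := by
    have : u + t • y.1 = (x.1 + t • y.1) - (x.1 - u) := by abel
    rw [this]
    refine (norm_sub_le _ _).trans ?_
    linarith
  have f2 : ‖u - t • y.1‖ ≤ ‖x.1 - t • y.1‖ + η := by
    have : u - t • y.1 = (x.1 - t • y.1) - (x.1 - u) := by abel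
    rw [this]
    refine (norm_sub_le _ _).trans ?_
    linarith
  have f3 : max ‖u + t • y.1‖ ‖u - t • y.1‖ ≤ max ‖x.1 + t • y.1‖ ‖x.1 - t • y.1‖ + η := by
    apply max_le
    · exact f1.trans (by gcongr; exact le_max_left _ _)
    · exact f2.trans (by gcongr; exact le_max_right _ _)
  have : r ≤ max ‖x.1 + t • y.1‖ ‖x.1 - t • y.1‖ - 1 := by linarith
  have h' : ((r : ℝ) : EReal) ≤ ((max ‖x.1 + t • y.1‖ ‖x.1 - t • y.1‖ - 1 : ℝ) : EReal) := by
    exact_mod_cast this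
  exact h'

theorem isAMUC_of (hp : 0 < p) (hκ : 0 < κ) (hD : Dense {u : X | TE p κ u}) :
    IsAMUC (normSeminorm ℝ X) := by
  intro t ht
  refine lt_of_lt_of_le ?_ (le_amuc hp hκ hD ht)
  have h1 : 0 < κ * t ^ p := by positivity
  have h2 : (1 : ℝ) < (1 + κ * t ^ p) ^ (1 / p) :=
    Real.one_lt_rpow (by linarith) (by positivity)
  have h' : (0 : ℝ) < (1 + κ * t ^ p) ^ (1 / p) - 1 := by linarith
  exact_mod_cast h'

theorem aus_le (hp : 0 < p) (hD : Dense {u : X | TE p κ u}) {t : ℝ} (ht : 0 < t) :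
    ausModulus (normSeminorm ℝ X) t ≤ (((1 + t ^ p) ^ (1 / p) - 1 : ℝ) : EReal) := by
  refine iSup_le fun x => ?_
  have hx : ‖x.1‖ = 1 := x.2
  refine EReal.le_of_forall_lt_iff_le.1 fun r hr => ?_
  have hr' : (1 + t ^ p) ^ (1 / p) - 1 < r := by exact_mod_cast hr
  obtain ⟨η, hη, _, hη2⟩ := exists_small
    (f := fun η => r - (((1 + η) ^ p + t ^ p) ^ (1 / p) + η - 1))
    (continuous_const.sub
      ((((((continuous_const.add continuous_id).rpow_const fun _ => Or.inr hp.le).add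
      continuous_const).rpow_const fun _ => Or.inr (by positivity)).add continuous_id).sub
      continuous_const))
    (by simp only [add_zero, Real.one_rpow]; linarith)
  obtain ⟨u, ⟨F, hF, hFu⟩, hux⟩ := Metric.mem_closure_iff.1 (hD x.1) η hη
  refine iInf_le_of_le ⟨F, hF⟩ (iSup_le fun y => ?_)
  have hy : ‖y.1‖ = 1 := y.2.2
  have h1 := (hFu (t • y.1) (F.smul_mem t y.2.1)).2
  have h2 : ‖t • y.1‖ = t := by rw [norm_smul, hy, Real.norm_of_nonneg ht.le, mul_one]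
  rw [h2] at h1
  have hxu : ‖x.1 - u‖ < η := by rwa [dist_eq_norm] at hux
  have hun : ‖u‖ ≤ 1 + η := by
    have := norm_sub_norm_le u x.1
    rw [hx, norm_sub_rev] at this
    linarith
  have h3 : ‖u‖ ^ p ≤ (1 + η) ^ p := Real.rpow_le_rpow (norm_nonneg _) hun hp.le
  have h4 : ‖u + t • y.1‖ ≤ ((1 + η) ^ p + t ^ p) ^ (1 / p) :=
    le_root hp (norm_nonneg _) (by linarith)
  have h5 : ‖x.1 + t • y.1‖ ≤ ‖u + t • y.1‖ + η := by
    have : x.1 + t • y.1 = (u + t • y.1) + (x.1 - u) := by abel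
    rw [this]
    refine (norm_add_le _ _).trans ?_
    linarith
  have h6 : ‖x.1 + t • y.1‖ - 1 ≤ r := by linarith
  have h' : ((‖x.1 + t • y.1‖ - 1 : ℝ) : EReal) ≤ ((r : ℝ) : EReal) := by
    exact_mod_cast h6
  exact h'

theorem mid_aux (hp : 0 < p) (hκ : 0 < κ) (hD : Dense {u : X | TE p κ u}) {z w : X} {m : ℕ → X}
    {L δ : ℝ} (h1 : ∀ i, ‖z - m i‖ ≤ L) (h2 : ∀ i, ‖m i - w‖ ≤ L)
    (h3 : ∀ i j, i ≠ j → 2 * δ ≤ ‖m i - m j‖) {ε : ℝ} (hε : 0 < ε) :
    (max (‖(1 / 2 : ℝ) • (z - w)‖ - ε) 0) ^ p + κ * (max (δ - ε) 0) ^ p ≤ (L + 2 * ε) ^ p := by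
  set u : X := (1 / 2 : ℝ) • (z - w) with hu
  obtain ⟨u', ⟨F, hF, hFu⟩, huu'⟩ := Metric.mem_closure_iff.1 (hD u) ε hε
  rw [dist_eq_norm] at huu'
  have hb : ∀ i, ‖(1 / 2 : ℝ) • m i‖ ≤ (1 / 2) * (‖z‖ + L) := by
    intro i
    rw [norm_smul, Real.norm_of_nonneg (by norm_num)]
    have : ‖m i‖ ≤ ‖z‖ + ‖z - m i‖ := by
      have := norm_sub_le z (z - m i)
      rwa [sub_sub_cancel] at this
    have := h1 i
    linarith
  obtain ⟨i, j, hij, y', hy'F, hy'⟩ := exists_pair hF hb hε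
  set y : X := (1 / 2 : ℝ) • m i - (1 / 2 : ℝ) • m j with hy
  have hy1 : δ ≤ ‖y‖ := by
    have e : y = (1 / 2 : ℝ) • (m i - m j) := by rw [hy, smul_sub]
    rw [e, norm_smul, Real.norm_of_nonneg (by norm_num)]
    have := h3 i j hij
    linarith
  have hpl : ‖u + y‖ ≤ L := by
    have e : u + y = (1 / 2 : ℝ) • ((z - m j) + (m i - w)) := by
      rw [hu, hy, ← smul_sub, ← smul_add]; congr 1; abel
    rw [e, norm_smul, Real.norm_of_nonneg (by norm_num)]
    have := norm_add_le (z - m j) (m i - w)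
    have := h1 j
    have := h2 i
    linarith
  have hm : ‖u - y‖ ≤ L := by
    have e : u - y = (1 / 2 : ℝ) • ((z - m i) + (m j - w)) := by
      rw [hu, hy, ← smul_sub, ← smul_sub]; congr 1; abel
    rw [e, norm_smul, Real.norm_of_nonneg (by norm_num)]
    have := norm_add_le (z - m i) (m j - w)
    have := h1 i
    have := h2 j
    linarith
  have hp' : ‖u' + y'‖ ≤ L + 2 * ε := by
    have e : u' + y' = (u + y) - ((u - u') + (y - y')) := by abel
    rw [e]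
    have := norm_sub_le (u + y) ((u - u') + (y - y'))
    have := norm_add_le (u - u') (y - y')
    linarith
  have hm' : ‖u' - y'‖ ≤ L + 2 * ε := by
    have e : u' - y' = (u - y) - ((u - u') - (y - y')) := by abel
    rw [e]
    have := norm_sub_le (u - y) ((u - u') - (y - y'))
    have := norm_sub_le (u - u') (y - y')
    linarith
  have hu' : max (‖u‖ - ε) 0 ≤ ‖u'‖ := by
    refine max_le ?_ (norm_nonneg _)
    have := norm_sub_norm_le u u'
    linarith
  have hy'' : max (δ - ε) 0 ≤ ‖y'‖ := by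
    refine max_le ?_ (norm_nonneg _)
    have := norm_sub_norm_le y y'
    linarith
  have k1 := (hFu y' hy'F).1
  have k2 : max ‖u' + y'‖ ‖u' - y'‖ ^ p ≤ (L + 2 * ε) ^ p :=
    Real.rpow_le_rpow (le_trans (norm_nonneg _) (le_max_left _ _)) (max_le hp' hm') hp.le
  have k4 : (max (‖u‖ - ε) 0) ^ p ≤ ‖u'‖ ^ p := Real.rpow_le_rpow (le_max_right _ _) hu' hp.le
  have k5 : (max (δ - ε) 0) ^ p ≤ ‖y'‖ ^ p := Real.rpow_le_rpow (le_max_right _ _) hy'' hp.le
  have k6 := mul_le_mul_of_nonneg_left k5 hκ.le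
  linarith

theorem mid (hp : 0 < p) (hκ : 0 < κ) (hD : Dense {u : X | TE p κ u}) {z w : X} {m : ℕ → X}
    {L δ : ℝ} (hδ : 0 ≤ δ) (h1 : ∀ i, ‖z - m i‖ ≤ L) (h2 : ∀ i, ‖m i - w‖ ≤ L)
    (h3 : ∀ i j, i ≠ j → 2 * δ ≤ ‖m i - m j‖) :
    ‖z - w‖ ^ p ≤ 2 ^ p * (L ^ p - κ * δ ^ p) := by
  have hcont : Continuous fun ε : ℝ => (L + 2 * ε) ^ p -
      ((max (‖(1 / 2 : ℝ) • (z - w)‖ - ε) 0) ^ p + κ * (max (δ - ε) 0) ^ p) := by
    refine Continuous.sub (Continuous.rpow_const (by fun_prop) fun _ => Or.inr hp.le)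
      (Continuous.add (Continuous.rpow_const (by fun_prop) fun _ => Or.inr hp.le)
        (continuous_const.mul (Continuous.rpow_const (by fun_prop) fun _ => Or.inr hp.le)))
  have hlim := (hcont.tendsto 0).mono_left (nhdsWithin_le_nhds (s := Set.Ioi 0))
  have hge := ge_of_tendsto hlim (b := 0) (by
    filter_upwards [self_mem_nhdsWithin] with ε hε
    have := mid_aux hp hκ hD h1 h2 h3 (Set.mem_Ioi.1 hε)
    linarith)
  rw [sub_zero, sub_zero, mul_zero, add_zero, max_eq_left (norm_nonneg _), max_eq_left hδ] at hge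
  have e : ‖z - w‖ = 2 * ‖(1 / 2 : ℝ) • (z - w)‖ := by
    rw [norm_smul, Real.norm_of_nonneg (by norm_num)]; ring
  rw [e, Real.mul_rpow (by norm_num) (norm_nonneg _)]
  exact mul_le_mul_of_nonneg_left (by linarith) (by positivity)

theorem diamond_aux {Z : Type} [NormedAddCommGroup Z] [NormedSpace ℝ Z] (hp : 0 < p) (hκ : 0 < κ)
    (hD : Dense {u : Z | TE p κ u}) (k : ℕ) : ∀ (f : (diamond k).V → Z) (s M : ℝ), 0 < s →
      (∀ x y, s * ((diamond k).E.dist x y : ℝ) ≤ ‖f x - f y‖) →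
      (∀ x y, (diamond k).E.Adj x y → ‖f x - f y‖ ^ p ≤ s ^ p * M) →
      1 + κ * k ≤ M := by
  induction k with
  | zero =>
    intro f s M hs h1 h2
    obtain ⟨x, y, hxy⟩ := exists_adj_diamond 0
    have e1 := h1 x y
    have e2 := h2 x y hxy
    rw [SimpleGraph.dist_eq_one_iff_adj.2 hxy, Nat.cast_one, mul_one] at e1
    have e3 : s ^ p ≤ ‖f x - f y‖ ^ p := Real.rpow_le_rpow hs.le e1 hp.le
    have e4 : s ^ p * 1 ≤ s ^ p * M := by linarith
    have := le_of_mul_le_mul_left e4 (by positivity)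
    simpa using this
  | succ k ih =>
    intro f s M hs h1 h2
    have hpre := preconnected_diamond k
    have hstep := ih (fun a => f (.inl a)) (2 * s) (M - κ) (by linarith) ?_ ?_
    · push_cast
      linarith
    · intro x y
      have e1 := h1 (.inl x) (.inl y)
      have e2 : (2 * (diamond k).E.dist x y : ℝ) ≤
          ((diamond (k + 1)).E.dist (.inl x) (.inl y) : ℝ) := by
        exact_mod_cast two_mul_dist_le hpre x y
      have e3 := mul_le_mul_of_nonneg_left e2 hs.le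
      calc 2 * s * ((diamond k).E.dist x y : ℝ) = s * (2 * ((diamond k).E.dist x y : ℝ)) := by
            ring
        _ ≤ _ := e3.trans e1
    · intro x y hxy
      have g1 : ∀ i : ℕ, ‖f (.inl x) - f (.inr (⟨s(x, y), hxy⟩, i))‖ ^ p ≤ s ^ p * M := fun i =>
        h2 _ _ (adj_inl_inr (by simp))
      have g2 : ∀ i : ℕ, ‖f (.inr (⟨s(x, y), hxy⟩, i)) - f (.inl y)‖ ^ p ≤ s ^ p * M := fun i =>
        h2 _ _ (adj_inr_inl (by simp))
      have g3 : ∀ i j : ℕ, i ≠ j →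
          2 * s ≤ ‖f (.inr (⟨s(x, y), hxy⟩, i)) - f (.inr (⟨s(x, y), hxy⟩, j))‖ := by
        intro i j hij
        refine le_trans ?_ (h1 _ _)
        have : (2 : ℝ) ≤ ((diamond (k + 1)).E.dist (.inr (⟨s(x, y), hxy⟩, i))
            (.inr (⟨s(x, y), hxy⟩, j)) : ℝ) := by
          exact_mod_cast two_le_dist hpre ⟨s(x, y), hxy⟩ hij
        nlinarith
      have hM : 0 ≤ s ^ p * M := (Real.rpow_nonneg (norm_nonneg _) _).trans (g1 0)
      have := mid hp hκ hD (L := (s ^ p * M) ^ (1 / p)) (δ := s) hs.le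
        (fun i => le_root hp (norm_nonneg _) (g1 i)) (fun i => le_root hp (norm_nonneg _) (g2 i)) g3
      rw [← Real.rpow_mul hM, one_div_mul_cancel hp.ne', Real.rpow_one] at this
      rw [Real.mul_rpow (by norm_num) hs.le]
      refine this.trans (le_of_eq ?_)
      ring

theorem diamond_lower {Z : Type} [NormedAddCommGroup Z] [NormedSpace ℝ Z] (hp : 0 < p)
    (hκ : 0 < κ) (hD : Dense {u : Z | TE p κ u}) (k : ℕ) (D : ℝ)
    (h : EmbedsWith (diamond k) Z D) : (1 + κ * k) ^ (1 / p) ≤ D := by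
  obtain ⟨f, s, hs, hf⟩ := h
  have hD0 : 0 ≤ D := by
    obtain ⟨x, y, hxy⟩ := exists_adj_diamond k
    have h1 := hf x y
    rw [SimpleGraph.dist_eq_one_iff_adj.2 hxy, Nat.cast_one, mul_one] at h1
    by_contra hneg
    push Not at hneg
    have := norm_nonneg (f x - f y)
    nlinarith [h1.1, h1.2, mul_neg_of_neg_of_pos hneg hs]
  have key := diamond_aux hp hκ hD k f s (D ^ p) hs (fun x y => (hf x y).1) fun x y hxy => by
    have h1 := (hf x y).2
    rw [SimpleGraph.dist_eq_one_iff_adj.2 hxy, Nat.cast_one, mul_one] at h1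
    calc ‖f x - f y‖ ^ p ≤ (D * s) ^ p := Real.rpow_le_rpow (norm_nonneg _) h1 hp.le
      _ = s ^ p * D ^ p := by rw [Real.mul_rpow hD0 hs.le, mul_comm]
  exact root_le hp (by positivity) hD0 key

end Vale.Agent.N069
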