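import Vale.Agent.N069.Dual

/-!
# The dual space is reflexive and separable, and contains the bad trees
-/

open Filter Topology Finset TopologicalSpace

namespace Vale.Agent.N069

open Vale.Agent.P069 Vale.Agent.P069.JT

variable {q : ℝ}

open Classical in
/-- The basis vector of the node `s`. -/
noncomputable def bv (q : ℝ) (s : List ℕ) : Y q :=
  Y.mk q (fun t => if t = s ∧ Al s then 1 else 0)
    ⟨⟨{s}, fun _ ht => if_neg fun h => ht (mem_singleton.2 h.1)⟩,
      fun t ht => if_neg fun h : t = s ∧ Al s => ht (h.1 ▸ h.2)⟩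

lemma bv_ne {s t : List ℕ} (h : t ≠ s) : (bv q s).fn t = 0 := if_neg fun h' => h h'.1

lemma bv_self {s : List ℕ} (h : Al s) : (bv q s).fn s = 1 := if_pos ⟨rfl, h⟩

lemma fn_sum {ι : Type*} (s : Finset ι) (f : ι → Y q) (t : List ℕ) :
    (∑ i ∈ s, f i).fn t = ∑ i ∈ s, (f i).fn t := by
  classical
  induction s using Finset.induction_on with
  | empty => rw [sum_empty, sum_empty, fn_zero]
  | insert a s ha ih => rw [sum_insert ha, sum_insert ha, fn_add, ih]

lemma PD_eq (D : Finset (List ℕ)) (w : Y q) : PD q D w = ∑ s ∈ D, w.fn s • bv q s := by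
  refine Y.ext fun t => ?_
  rw [fn_sum]
  by_cases ht : t ∈ D
  · rw [PD_pos w ht, sum_eq_single t]
    · by_cases h : Al t
      · rw [fn_smul, bv_self h, mul_one]
      · rw [fn_smul, w.mem.2 t h, zero_mul]
    · intro s _ hs
      rw [fn_smul, bv_ne hs.symm, mul_zero]
    · intro h
      exact absurd ht h
  · rw [PD_neg w ht]
    refine (sum_eq_zero fun s hs => ?_).symm
    rw [fn_smul, bv_ne (fun h : t = s => ht (h ▸ hs)), mul_zero]

variable [hq : Fact (1 < q)]

lemma norm_bv_le (s : List ℕ) : ‖bv q s‖ ≤ 1 := by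
  classical
  have h0 : 0 < q := by linarith [hq.out]
  refine le_of_rpow_le h0 zero_le_one ?_ (norm_nonneg _)
  rw [norm_eq, Real.one_rpow]
  refine nrm_le hq.out.le fun m S hS => ?_
  have h1 : ∀ i, |df (bv q s).fn (S i)| ^ q ≤ if s ∈ nd (S i) then 1 else 0 := by
    intro i
    rw [df_eq_sum _ (hS.1 i)]
    by_cases h : s ∈ nd (S i)
    · rw [if_pos h, sum_eq_single s (fun t _ ht => bv_ne ht) (fun h' => absurd h h')]
      refine Real.rpow_le_one (abs_nonneg _) ?_ h0.le
      by_cases h2 : Al s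
      · rw [bv_self h2, abs_one]
      · rw [(bv q s).mem.2 s h2, abs_zero]
        exact zero_le_one
    · rw [if_neg h, sum_eq_zero fun t ht => bv_ne fun h' : t = s => h (h' ▸ ht), abs_zero,
        Real.zero_rpow h0.ne']
  refine (sum_le_sum fun i _ => h1 i).trans ?_
  by_cases h : ∃ i, s ∈ nd (S i)
  · obtain ⟨i, hi⟩ := h
    rw [sum_eq_single i]
    · rw [if_pos hi]
    · intro j _ hj
      rw [if_neg]
      intro h2
      exact hS.2 j i hj s (mem_nd.1 h2) (mem_nd.1 hi)
    · intro h2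
      exact absurd (mem_univ i) h2
  · push Not at h
    rw [sum_eq_zero fun i _ => if_neg (h i)]
    exact zero_le_one

/-- The coordinate functional of the node `t`. -/
noncomputable def cf (q : ℝ) [hq : Fact (1 < q)] (t : List ℕ) : StrongDual ℝ (Y q) :=
  LinearMap.mkContinuous
    (LinearMap.mk ⟨fun w : Y q => w.fn t, fun v w => fn_add v w t⟩ fun a w => fn_smul a w t) 1
    fun w => by
      rw [one_mul]
      exact abs_le_nrm hq.out.le w.mem t

lemma cf_apply (t : List ℕ) (w : Y q) : cf q t w = w.fn t := rfl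

lemma norm_cf_le (t : List ℕ) : ‖cf q t‖ ≤ 1 := LinearMap.mkContinuous_norm_le _ zero_le_one _

/-- The sum along the path from the root to the node `t`. -/
noncomputable def ev (q : ℝ) [hq : Fact (1 < q)] (t : List ℕ) : StrongDual ℝ (Y q) :=
  LinearMap.mkContinuous
    (LinearMap.mk ⟨fun w : Y q => cm w.fn t, fun v w => by
        have h := cm_lin 1 1 v.fn w.fn t
        simp only [one_mul] at h
        exact h⟩ fun a w => by
        have h := cm_lin a 0 w.fn w.fn t
        simp only [zero_mul, add_zero] at h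
        exact h) 1
    fun w => by
      rw [one_mul]
      have h := abs_df_le hq.out.le w.mem (p := ([], t)) List.nil_suffix
      rw [df] at h
      simp only [cm, sub_zero] at h
      exact h

lemma ev_apply (t : List ℕ) (w : Y q) : ev q t w = cm w.fn t := rfl

lemma norm_ev_le (t : List ℕ) : ‖ev q t‖ ≤ 1 := LinearMap.mkContinuous_norm_le _ zero_le_one _

lemma ev_cons (k : ℕ) (t : List ℕ) : ev q (k :: t) - ev q t = cf q (k :: t) := by
  ext w
  rw [_root_.sub_apply, ev_apply, ev_apply, cf_apply, cm_cons]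
  ring

/-- The truncated functional. -/
noncomputable def PS (D : Finset (List ℕ)) (u : StrongDual ℝ (Y q)) : StrongDual ℝ (Y q) :=
  ∑ s ∈ D, u (bv q s) • cf q s

lemma PS_apply (D : Finset (List ℕ)) (u : StrongDual ℝ (Y q)) (w : Y q) :
    PS D u w = u (PD q D w) := by
  rw [PS, PD_eq, map_sum, _root_.sum_apply]
  refine sum_congr rfl fun s _ => ?_
  rw [_root_.smul_apply, cf_apply, map_smul, smul_eq_mul, smul_eq_mul, mul_comm]

lemma norm_PS_le {D : Finset (List ℕ)} (hD : Cl D) (u : StrongDual ℝ (Y q)) : ‖PS D u‖ ≤ ‖u‖ := by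
  refine ContinuousLinearMap.opNorm_le_bound _ (norm_nonneg _) fun w => ?_
  rw [PS_apply]
  exact (u.le_opNorm _).trans (mul_le_mul_of_nonneg_left (norm_PD_le hD w) (norm_nonneg _))

lemma exists_PS (u : StrongDual ℝ (Y q)) {ε : ℝ} (hε : 0 < ε) (E : Finset (List ℕ)) :
    ∃ D, E ⊆ D ∧ Cl D ∧ ‖u - PS D u‖ ≤ ε := by
  classical
  obtain ⟨D₀, hD₀⟩ := shrink u hε
  obtain ⟨D, h1, h2, h3⟩ := exists_closure (D₀ ∪ E)
  refine ⟨D, subset_union_right.trans h1, ⟨h2, h3⟩, ?_⟩
  refine ContinuousLinearMap.opNorm_le_bound _ hε.le fun w => ?_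
  rw [_root_.sub_apply, PS_apply]
  exact hD₀ D (subset_union_left.trans h1) ⟨h2, h3⟩ w

/-- The space is dense in its bidual. -/
theorem dense_bidual (Φ : StrongDual ℝ (StrongDual ℝ (Y q))) {ε : ℝ} (hε : 0 < ε) :
    ∃ w : Y q, ∀ u, |Φ u - u w| ≤ ε * ‖u‖ := by
  classical
  have h0 : 0 < q := by linarith [hq.out]
  set W : Finset (List ℕ) → Y q := fun D => ∑ s ∈ D, Φ (cf q s) • bv q s with hW
  have hWu : ∀ D (u : StrongDual ℝ (Y q)), u (W D) = Φ (PS D u) := by
    intro D u
    rw [hW, PS, map_sum, map_sum]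
    refine sum_congr rfl fun s _ => ?_
    rw [map_smul, map_smul, smul_eq_mul, smul_eq_mul, mul_comm]
  have hWn : ∀ D, Cl D → ‖W D‖ ≤ ‖Φ‖ := by
    intro D hD
    refine NormedSpace.norm_le_dual_bound ℝ _ (norm_nonneg Φ) fun u => ?_
    rw [hWu]
    exact (Φ.le_opNorm _).trans (mul_le_mul_of_nonneg_left (norm_PS_le hD u) (norm_nonneg _))
  have hWfn : ∀ D t, (W D).fn t = if t ∈ D then Φ (cf q t) * (bv q t).fn t else 0 := by
    intro D t
    rw [hW, fn_sum]
    split_ifs with ht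
    · rw [sum_eq_single t (fun s _ hs => by rw [fn_smul, bv_ne hs.symm, mul_zero])
        (fun h => absurd ht h), fn_smul]
    · exact sum_eq_zero fun s hs => by rw [fn_smul, bv_ne (fun h : t = s => ht (h ▸ hs)), mul_zero]
  have hWP : ∀ D D', D ⊆ D' → PD q D (W D') = W D := by
    intro D D' hDD
    refine Y.ext fun t => ?_
    by_cases ht : t ∈ D
    · rw [PD_pos _ ht, hWfn, hWfn, if_pos ht, if_pos (hDD ht)]
    · rw [PD_neg _ ht, hWfn, if_neg ht]
  set A : Set ℝ := {x | ∃ D, Cl D ∧ ‖W D‖ ^ q = x} with hA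
  have hbdd : BddAbove A := by
    refine ⟨‖Φ‖ ^ q, ?_⟩
    rintro x ⟨D, hD, rfl⟩
    exact Real.rpow_le_rpow (norm_nonneg _) (hWn D hD) h0.le
  have hne : A.Nonempty := by
    obtain ⟨D, _, h2, h3⟩ := exists_closure ∅
    exact ⟨_, D, ⟨h2, h3⟩, rfl⟩
  have hεq : 0 < ε ^ q := by positivity
  obtain ⟨x, ⟨D₀, hD₀, rfl⟩, hx⟩ := exists_lt_of_lt_csSup hne
    (show sSup A - ε ^ q < sSup A by linarith)
  refine ⟨W D₀, fun u => le_of_forall_pos_le_add fun δ hδ => ?_⟩
  obtain ⟨D, hD1, hD2, hD3⟩ := exists_PS u (show 0 < δ / (‖Φ‖ + 1) by positivity) D₀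
  have h1 : ‖W D - W D₀‖ ≤ ε := by
    refine le_of_rpow_le h0 hε.le ?_ (norm_nonneg _)
    have h2 := lower_q hD₀.1 hD₀.2 (W D)
    rw [hWP D₀ D hD1] at h2
    have h3 : ‖W D‖ ^ q ≤ sSup A := le_csSup hbdd ⟨D, hD2, rfl⟩
    linarith
  have h2 : Φ u - u (W D₀) = Φ (u - PS D u) + u (W D - W D₀) := by
    rw [map_sub, map_sub, hWu D u]; ring
  rw [h2]
  refine (abs_add_le _ _).trans ?_
  have h3 : |Φ (u - PS D u)| ≤ δ := by
    refine (Φ.le_opNorm _).trans ((mul_le_mul_of_nonneg_left hD3 (norm_nonneg _)).trans ?_)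
    rw [mul_div_assoc', div_le_iff₀ (by positivity)]
    nlinarith [norm_nonneg Φ]
  have h4 : |u (W D - W D₀)| ≤ ‖u‖ * ε :=
    (u.le_opNorm _).trans (mul_le_mul_of_nonneg_left h1 (norm_nonneg _))
  linarith

theorem isReflexive_X : IsReflexive (StrongDual ℝ (Y q)) := by
  intro Ψ
  refine ⟨Ψ.comp (NormedSpace.inclusionInDoubleDual ℝ (Y q)), ?_⟩
  set x : StrongDual ℝ (Y q) := Ψ.comp (NormedSpace.inclusionInDoubleDual ℝ (Y q)) with hx
  ext Φ
  rw [NormedSpace.dual_def]
  refine eq_of_abs_sub_le_all fun ε hε => ?_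
  obtain ⟨w, hw⟩ := dense_bidual Φ (show 0 < ε / (‖x‖ + ‖Ψ‖ + 1) by positivity)
  have h1 : ‖Φ - NormedSpace.inclusionInDoubleDual ℝ (Y q) w‖ ≤ ε / (‖x‖ + ‖Ψ‖ + 1) := by
    refine ContinuousLinearMap.opNorm_le_bound _ (by positivity) fun u => ?_
    rw [_root_.sub_apply, NormedSpace.dual_def]
    exact hw u
  have h2 : |Ψ (Φ - NormedSpace.inclusionInDoubleDual ℝ (Y q) w)| ≤
      ‖Ψ‖ * (ε / (‖x‖ + ‖Ψ‖ + 1)) :=
    (Ψ.le_opNorm _).trans (mul_le_mul_of_nonneg_left h1 (norm_nonneg _))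
  have h3 := hw x
  have h4 : Φ x - Ψ Φ = (Φ x - x w) - Ψ (Φ - NormedSpace.inclusionInDoubleDual ℝ (Y q) w) := by
    rw [map_sub]
    have : x w = Ψ (NormedSpace.inclusionInDoubleDual ℝ (Y q) w) := rfl
    rw [this]; ring
  rw [h4]
  refine (abs_sub _ _).trans ?_
  have h5 : ε / (‖x‖ + ‖Ψ‖ + 1) * (‖x‖ + ‖Ψ‖ + 1) = ε := div_mul_cancel₀ _ (by positivity)
  have h6 : 0 < ε / (‖x‖ + ‖Ψ‖ + 1) := by positivity
  nlinarith

theorem separable_X : SeparableSpace (StrongDual ℝ (Y q)) := by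
  classical
  rw [← isSeparable_univ_iff]
  let S : Finset (List ℕ) → Set (StrongDual ℝ (Y q)) := fun D =>
    Set.range (fun a : D → ℝ => ∑ s : D, a s • cf q s.1)
  have hS : ∀ D, IsSeparable (S D) := fun D => isSeparable_range (by fun_prop)
  refine (IsSeparable.iUnion hS).closure.mono fun u _ => ?_
  rw [Metric.mem_closure_iff]
  intro ε hε
  obtain ⟨D, _, _, hD⟩ := exists_PS u (half_pos hε) ∅
  refine ⟨PS D u, Set.mem_iUnion.2 ⟨D, fun s => u (bv q s.1), ?_⟩, ?_⟩
  · exact Finset.sum_coe_sort D fun s => u (bv q s) • cf q s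
  · rw [dist_eq_norm]
    linarith

theorem goodTree_X (n : ℕ) : GoodTree (StrongDual ℝ (Y q)) 1 n := by
  refine ⟨fun t => ev q (t ++ [n]), fun t _ => norm_ev_le _, fun t ht i => ?_,
    fun t _ f => ?_⟩
  · simp only [List.cons_append]
    rw [ev_cons]
    have hAl : Al (i :: (t ++ [n])) := by
      refine ⟨List.cons_ne_nil _ _, ?_⟩
      rw [← List.cons_append, rt_append _ (List.cons_ne_nil _ _)]
      simp only [List.length_append, List.length_cons, List.length_nil, rt]
      omega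
    have h1 := (cf q (i :: (t ++ [n]))).le_opNorm (bv q (i :: (t ++ [n])))
    rw [cf_apply, bv_self hAl, norm_one] at h1
    exact h1.trans (mul_le_of_le_one_right (norm_nonneg _) (norm_bv_le _))
  · simp only [List.cons_append, ev_cons]
    rw [Metric.tendsto_atTop]
    intro ε hε
    obtain ⟨w, hw⟩ := dense_bidual f (half_pos hε)
    obtain ⟨⟨D, hD⟩, _⟩ := w.mem
    refine ⟨D.sup (fun s => s.headD 0) + 1, fun i hi => ?_⟩
    have h1 := hw (cf q (i :: (t ++ [n])))
    have h2 : i :: (t ++ [n]) ∉ D := fun h => by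
      have := Finset.le_sup (f := fun s : List ℕ => s.headD 0) h
      simp only [List.headD_cons] at this
      omega
    rw [cf_apply, hD _ h2, sub_zero] at h1
    rw [Real.dist_eq, sub_zero]
    have h3 := norm_cf_le (q := q) (i :: (t ++ [n]))
    nlinarith

theorem dense_TE {p : ℝ} (hpq : p.HolderConjugate q) :
    ∃ κ : ℝ, 0 < κ ∧ Dense {u : StrongDual ℝ (Y q) | TE p κ u} := by
  obtain ⟨l, hl, hKl⟩ := exists_lam (K := 1 + 2 ^ q) (by positivity) hq.out
  refine ⟨l / 2, half_pos hl, ?_⟩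
  rw [Metric.dense_iff]
  intro u r hr
  obtain ⟨D, _, hD, hu⟩ := exists_PS u (half_pos hr) ∅
  refine ⟨PS D u, ?_, ?_⟩
  · rw [Metric.mem_ball, dist_comm, dist_eq_norm]
    linarith
  · let g : StrongDual ℝ (Y q) →ₗ[ℝ] (D → ℝ) := LinearMap.pi fun t : D =>
      (NormedSpace.inclusionInDoubleDual ℝ (Y q) (bv q t.1)).toLinearMap
    have hker : ∀ y : StrongDual ℝ (Y q), y ∈ LinearMap.ker g ↔ ∀ t : D, y (bv q t.1) = 0 := by
      intro y
      rw [LinearMap.mem_ker]
      constructor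
      · intro h t
        have h1 : g y t = 0 := by rw [h]; rfl
        exact h1
      · intro h
        ext t
        exact h t
    refine ⟨LinearMap.ker g, ⟨?_, finiteDimensional_quotient_of_ker_le g _ le_rfl⟩, ?_⟩
    · have : (LinearMap.ker g : Set (StrongDual ℝ (Y q))) = ⋂ t : D,
          (NormedSpace.inclusionInDoubleDual ℝ (Y q) (bv q t.1)) ⁻¹' {0} := by
        ext y
        simp only [SetLike.mem_coe, Set.mem_iInter, Set.mem_preimage, Set.mem_singleton_iff]
        exact hker y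
      rw [this]
      exact isClosed_iInter fun t => isClosed_singleton.preimage
        (NormedSpace.inclusionInDoubleDual ℝ (Y q) (bv q t.1)).continuous
    · intro y hy
      rw [hker] at hy
      refine est_ineq hpq hl hKl (P := PD q D) (lower_q hD.1 hD.2)
        (fun f₀ g a c ha hc => key_dec hD.1 hD.2 f₀ g ha hc) _ y (fun w => ?_) fun w => ?_
      · rw [PS_apply, PS_apply]
        congr 1
        refine Y.ext fun t => ?_
        by_cases ht : t ∈ D
        · rw [PD_pos _ ht]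
        · rw [PD_neg _ ht, PD_neg _ ht]
      · rw [PD_eq, map_sum]
        refine sum_eq_zero fun t ht => ?_
        rw [map_smul, hy ⟨t, ht⟩, smul_zero]

end Vale.Agent.N069
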