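import Vale.Agent.P069.JT.Key
import Mathlib.Analysis.MeanInequalities

/-!
# The James-tree norm with exponent `q` on a forest of trees of finite height
-/

open Filter Topology Finset

namespace Vale.Agent.N069

open Vale.Agent.P069 Vale.Agent.P069.JT

/-- Sum of `w` along the path from the root to the node. -/
def cm (w : List ℕ → ℝ) : List ℕ → ℝ
  | [] => 0
  | k :: t => cm w t + w (k :: t)

lemma cm_cons (w : List ℕ → ℝ) (k : ℕ) (t : List ℕ) : cm w (k :: t) = cm w t + w (k :: t) := rfl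

lemma cm_lin (a c : ℝ) (v w : List ℕ → ℝ) (t : List ℕ) :
    cm (fun s => a * v s + c * w s) t = a * cm v t + c * cm w t := by
  induction t with
  | nil => simp [cm]
  | cons k t ih => rw [cm_cons, cm_cons, cm_cons, ih]; ring

/-- Sum of `w` over the segment `p`. -/
def df (w : List ℕ → ℝ) (p : List ℕ × List ℕ) : ℝ := cm w p.2 - cm w p.1

lemma df_lin (a c : ℝ) (v w : List ℕ → ℝ) (p : List ℕ × List ℕ) :
    df (fun s => a * v s + c * w s) p = a * df v p + c * df w p := by
  rw [df, df, df, cm_lin, cm_lin]; ring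

/-- The nodes of the segment `p`. -/
def nd (p : List ℕ × List ℕ) : Finset (List ℕ) := p.2.tails.toFinset.filter fun u => ¬ u <:+ p.1

lemma mem_nd {p : List ℕ × List ℕ} {u : List ℕ} : u ∈ nd p ↔ On u p := by
  rw [nd, mem_filter, List.mem_toFinset, List.mem_tails, On]

lemma df_eq_sum' (w : List ℕ → ℝ) (s l : List ℕ) :
    df w (s, l ++ s) = ∑ u ∈ nd (s, l ++ s), w u := by
  induction l with
  | nil =>
    have h : nd (s, [] ++ s) = ∅ := by
      rw [Finset.eq_empty_iff_forall_notMem]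
      intro u hu
      rw [mem_nd] at hu
      exact hu.2 hu.1
    rw [h, sum_empty, df]
    simp
  | cons k l ih =>
    have h1 : df w (s, (k :: l) ++ s) = df w (s, l ++ s) + w (k :: (l ++ s)) := by
      simp only [df, List.cons_append, cm_cons]; ring
    rw [h1, ih]
    have hns : ¬ k :: (l ++ s) <:+ s := fun h => by
      have := h.length_le
      simp at this
    have hnl : k :: (l ++ s) ∉ nd (s, l ++ s) := fun h => by
      rw [mem_nd] at h
      have := h.1.length_le
      simp at this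
    have h2 : nd (s, (k :: l) ++ s) = insert (k :: (l ++ s)) (nd (s, l ++ s)) := by
      ext u
      rw [mem_insert, mem_nd, mem_nd, On, On, List.cons_append, List.suffix_cons_iff]
      constructor
      · rintro ⟨h3 | h3, h4⟩
        · exact Or.inl h3
        · exact Or.inr ⟨h3, h4⟩
      · rintro (h3 | ⟨h3, h4⟩)
        · subst h3
          exact ⟨Or.inl rfl, hns⟩
        · exact ⟨Or.inr h3, h4⟩
    rw [h2, sum_insert hnl, add_comm]

lemma df_eq_sum (w : List ℕ → ℝ) {p : List ℕ × List ℕ} (hp : p.1 <:+ p.2) :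
    df w p = ∑ u ∈ nd p, w u := by
  obtain ⟨s, t⟩ := p
  obtain ⟨l, hl⟩ := hp
  change l ++ s = t at hl
  subst hl
  exact df_eq_sum' w s l

/-- The index of the tree of the forest in which the node lies. -/
def rt : List ℕ → ℕ
  | [] => 0
  | [k] => k
  | _ :: k :: t => rt (k :: t)

lemma rt_append (l : List ℕ) {u : List ℕ} (hu : u ≠ []) : rt (l ++ u) = rt u := by
  induction l with
  | nil => rfl
  | cons k l ih =>
    rw [← ih, List.cons_append]
    cases h : l ++ u with
    | nil => exact absurd (List.append_eq_nil_iff.1 h).2 hu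
    | cons j t => rfl

lemma rt_of_on {u : List ℕ} {p : List ℕ × List ℕ} (h : On u p) : rt u = rt p.2 := by
  obtain ⟨⟨l, hl⟩, h2⟩ := h
  have hu : u ≠ [] := by
    rintro rfl
    exact h2 List.nil_suffix
  rw [← hl, rt_append l hu]

/-- The nodes of the forest: the tree with index `n` has height `n + 1`. -/
def Al (t : List ℕ) : Prop := t ≠ [] ∧ t.length ≤ rt t + 1

/-- Finitely supported functions on the forest. -/
def VV : Submodule ℝ (List ℕ → ℝ) where
  carrier := {w | (∃ D : Finset (List ℕ), ∀ t, t ∉ D → w t = 0) ∧ ∀ t, ¬ Al t → w t = 0}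
  add_mem' := by
    rintro v w ⟨⟨D, hD⟩, hv⟩ ⟨⟨E, hE⟩, hw⟩
    refine ⟨⟨D ∪ E, fun t ht => ?_⟩, fun t ht => ?_⟩
    · rw [mem_union, not_or] at ht
      rw [Pi.add_apply, hD t ht.1, hE t ht.2, add_zero]
    · rw [Pi.add_apply, hv t ht, hw t ht, add_zero]
  zero_mem' := ⟨⟨∅, fun _ _ => rfl⟩, fun _ _ => rfl⟩
  smul_mem' := by
    rintro a w ⟨⟨D, hD⟩, hw⟩
    refine ⟨⟨D, fun t ht => ?_⟩, fun t ht => ?_⟩
    · rw [Pi.smul_apply, hD t ht, smul_zero]
    · rw [Pi.smul_apply, hw t ht, smul_zero]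

lemma mem_VV_of_le {v w : List ℕ → ℝ} (hw : w ∈ VV) (h : ∀ t, w t = 0 → v t = 0) : v ∈ VV := by
  obtain ⟨⟨D, hD⟩, hw⟩ := hw
  exact ⟨⟨D, fun t ht => h t (hD t ht)⟩, fun t ht => h t (hw t ht)⟩

lemma sum_df_le {q : ℝ} (hq : 1 ≤ q) {w : List ℕ → ℝ} {D : Finset (List ℕ)} {N : ℕ}
    (hD : ∀ t, t ∉ D → w t = 0) (hN : ∀ t, w t ≠ 0 → t.length ≤ N)
    {ι : Type} [Fintype ι] {S : ι → List ℕ × List ℕ} (hS : IsSys S) :
    ∑ i, |df w (S i)| ^ q ≤ ((N : ℝ) + 1) ^ (q - 1) * ∑ t ∈ D, |w t| ^ q := by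
  classical
  set B : ι → Finset (List ℕ) := fun i => (nd (S i)).filter fun u => w u ≠ 0 with hB
  have hcard : ∀ i, ((B i).card : ℝ) ≤ N + 1 := by
    intro i
    have h : (B i).card ≤ (Finset.range (N + 1)).card := by
      refine Finset.card_le_card_of_injOn List.length ?_ ?_
      · intro u hu
        rw [mem_coe, hB, mem_filter] at hu
        rw [mem_coe, mem_range]
        exact Nat.lt_succ_of_le (hN u hu.2)
      · intro u hu v hv huv
        rw [mem_coe, hB, mem_filter, mem_nd] at hu hv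
        exact (List.suffix_of_suffix_length_le hu.1.1 hv.1.1 huv.le).eq_of_length huv
    rw [card_range] at h
    exact_mod_cast h
  have h1 : ∀ i, |df w (S i)| ^ q ≤ ((N : ℝ) + 1) ^ (q - 1) * ∑ t ∈ B i, |w t| ^ q := by
    intro i
    have e : df w (S i) = ∑ u ∈ B i, w u := by
      rw [df_eq_sum w (hS.1 i), hB, sum_filter_ne_zero]
    calc |df w (S i)| ^ q ≤ (∑ u ∈ B i, |w u|) ^ q := by
          rw [e]
          exact Real.rpow_le_rpow (abs_nonneg _) (abs_sum_le_sum_abs _ _) (by linarith)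
      _ ≤ ((B i).card : ℝ) ^ (q - 1) * ∑ u ∈ B i, |w u| ^ q :=
          Real.rpow_sum_le_const_mul_sum_rpow _ _ hq
      _ ≤ _ := by
          refine mul_le_mul_of_nonneg_right ?_ (sum_nonneg fun _ _ => by positivity)
          exact Real.rpow_le_rpow (Nat.cast_nonneg _) (hcard i) (by linarith)
  calc ∑ i, |df w (S i)| ^ q ≤ ∑ i, ((N : ℝ) + 1) ^ (q - 1) * ∑ t ∈ B i, |w t| ^ q :=
        sum_le_sum fun i _ => h1 i
    _ = ((N : ℝ) + 1) ^ (q - 1) * ∑ t ∈ Finset.univ.biUnion B, |w t| ^ q := by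
        rw [sum_biUnion, mul_sum]
        intro i _ j _ hij
        rw [Function.onFun, Finset.disjoint_left]
        intro u hu hv
        rw [hB, mem_filter, mem_nd] at hu hv
        exact hS.2 i j hij u hu.1 hv.1
    _ ≤ _ := by
        refine mul_le_mul_of_nonneg_left ?_ (by positivity)
        refine sum_le_sum_of_subset_of_nonneg ?_ fun _ _ _ => by positivity
        intro u hu
        obtain ⟨i, _, hi⟩ := mem_biUnion.1 hu
        rw [hB, mem_filter] at hi
        by_contra h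
        exact hi.2 (hD u h)

/-- The `q`-variation of `w` along a system of disjoint segments. -/
noncomputable def sv (q : ℝ) (w : List ℕ → ℝ) (σ : Sy) : ℝ :=
  (∑ i, |df w (σ.2.1 i)| ^ q) ^ (1 / q)

/-- The James-tree norm with exponent `q`. -/
noncomputable def nrm (q : ℝ) (w : List ℕ → ℝ) : ℝ := ⨆ σ : Sy, sv q w σ

/-- The empty system. -/
def sy0 : Sy := ⟨0, fun _ => ([], []), fun i => i.elim0, fun i => i.elim0⟩

instance : Nonempty Sy := ⟨sy0⟩

lemma sv_nonneg (q : ℝ) (w : List ℕ → ℝ) (σ : Sy) : 0 ≤ sv q w σ := by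
  unfold sv; positivity

lemma bdd_sv {q : ℝ} (hq : 1 ≤ q) {w : List ℕ → ℝ} (hw : w ∈ VV) :
    BddAbove (Set.range (sv q w)) := by
  obtain ⟨⟨D, hD⟩, _⟩ := hw
  refine ⟨((((D.sup List.length : ℕ) : ℝ) + 1) ^ (q - 1) * ∑ t ∈ D, |w t| ^ q) ^ (1 / q), ?_⟩
  rintro _ ⟨σ, rfl⟩
  refine Real.rpow_le_rpow (by positivity) (sum_df_le hq hD (fun t ht => ?_) σ.2.2)
    (by positivity)
  refine Finset.le_sup (f := List.length) ?_
  by_contra h
  exact ht (hD t h)

lemma sv_le {q : ℝ} (hq : 1 ≤ q) {w : List ℕ → ℝ} (hw : w ∈ VV) (σ : Sy) : sv q w σ ≤ nrm q w :=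
  le_ciSup (bdd_sv hq hw) σ

lemma nrm_nonneg (q : ℝ) (w : List ℕ → ℝ) : 0 ≤ nrm q w :=
  Real.iSup_nonneg fun σ => sv_nonneg q w σ

lemma sum_le_nrm {q : ℝ} (hq : 1 ≤ q) {w : List ℕ → ℝ} (hw : w ∈ VV) {ι : Type} [Fintype ι]
    {S : ι → List ℕ × List ℕ} (hS : IsSys S) : ∑ i, |df w (S i)| ^ q ≤ nrm q w ^ q := by
  let e := Fintype.equivFin ι
  let σ : Sy := ⟨Fintype.card ι, fun j => S (e.symm j), fun j => hS.1 _, fun i j hij =>
    hS.2 _ _ fun h => hij (e.symm.injective h)⟩
  have h1 : ∑ i, |df w (S i)| ^ q = sv q w σ ^ q := by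
    rw [sv, ← Real.rpow_mul (by positivity), one_div_mul_cancel (by linarith), Real.rpow_one]
    exact (Equiv.sum_comp e.symm fun i => |df w (S i)| ^ q).symm
  rw [h1]
  exact Real.rpow_le_rpow (sv_nonneg _ _ _) (sv_le hq hw σ) (by linarith)

lemma nrm_le {q : ℝ} (hq : 1 ≤ q) {w : List ℕ → ℝ} {C : ℝ}
    (h : ∀ (m : ℕ) (S : Fin m → List ℕ × List ℕ), IsSys S → ∑ i, |df w (S i)| ^ q ≤ C) :
    nrm q w ^ q ≤ C := by
  have hC : 0 ≤ C := by
    have := h 0 (fun i => ([], [])) ⟨fun i => i.elim0, fun i => i.elim0⟩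
    simpa using this
  have h1 : nrm q w ≤ C ^ (1 / q) := ciSup_le fun σ =>
    Real.rpow_le_rpow (by positivity) (h _ _ σ.2.2) (by positivity)
  calc nrm q w ^ q ≤ (C ^ (1 / q)) ^ q := Real.rpow_le_rpow (nrm_nonneg _ _) h1 (by linarith)
    _ = C := by
      rw [← Real.rpow_mul hC, one_div_mul_cancel (by linarith), Real.rpow_one]

lemma abs_df_le {q : ℝ} (hq : 1 ≤ q) {w : List ℕ → ℝ} (hw : w ∈ VV) {p : List ℕ × List ℕ}
    (hp : p.1 <:+ p.2) : |df w p| ≤ nrm q w := by
  have h := sum_le_nrm hq hw (ι := Unit) (S := fun _ => p) ⟨fun _ => hp, fun i j hij =>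
    absurd (Subsingleton.elim i j) hij⟩
  simp only [Finset.univ_unique, sum_singleton] at h
  exact (Real.rpow_le_rpow_iff (abs_nonneg _) (nrm_nonneg _ _) (by linarith)).1 h

lemma df_single (w : List ℕ → ℝ) {t : List ℕ} (ht : t ≠ []) : df w (t.tail, t) = w t := by
  cases t with
  | nil => exact absurd rfl ht
  | cons k t => rw [df, List.tail_cons, cm_cons]; ring

lemma sum_rpow_le_nrm {q : ℝ} (hq : 1 ≤ q) {w : List ℕ → ℝ} (hw : w ∈ VV)
    (D : Finset (List ℕ)) : ∑ t ∈ D, |w t| ^ q ≤ nrm q w ^ q := by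
  classical
  have h0 : w [] = 0 := hw.2 [] fun h => h.1 rfl
  have h1 : ∑ t ∈ D, |w t| ^ q = ∑ t ∈ D.filter (fun t => t ≠ []), |w t| ^ q := by
    rw [sum_filter]
    refine sum_congr rfl fun t _ => ?_
    split_ifs with h
    · rfl
    · rw [not_not.1 h, h0, abs_zero, Real.zero_rpow (by linarith)]
  have hc : ∀ i : {x // x ∈ D.filter (fun t => t ≠ [])}, i.1 ≠ [] := fun i => (mem_filter.1 i.2).2
  have h3 := sum_le_nrm hq hw (isSys_singles
    (f := fun i : {x // x ∈ D.filter (fun t => t ≠ [])} => i.1) Subtype.val_injective hc)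
  rw [h1, ← sum_coe_sort]
  refine le_trans (le_of_eq ?_) h3
  exact sum_congr rfl fun i _ => by rw [df_single w (hc i)]

lemma abs_le_nrm {q : ℝ} (hq : 1 ≤ q) {w : List ℕ → ℝ} (hw : w ∈ VV) (t : List ℕ) :
    |w t| ≤ nrm q w := by
  have h := sum_rpow_le_nrm hq hw {t}
  rw [sum_singleton] at h
  exact (Real.rpow_le_rpow_iff (abs_nonneg _) (nrm_nonneg _ _) (by linarith)).1 h

lemma nrm_add_le {q : ℝ} (hq : 1 ≤ q) {v w : List ℕ → ℝ} (hv : v ∈ VV) (hw : w ∈ VV) :
    nrm q (v + w) ≤ nrm q v + nrm q w := by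
  refine ciSup_le fun σ => le_trans ?_ (add_le_add (sv_le hq hv σ) (sv_le hq hw σ))
  have e : ∀ p, df (v + w) p = df v p + df w p := fun p => by
    have := df_lin 1 1 v w p
    simp only [one_mul] at this
    exact this
  unfold sv
  simp only [e]
  exact Real.Lp_add_le _ _ _ hq

lemma nrm_smul_le {q : ℝ} (hq : 1 ≤ q) (a : ℝ) {w : List ℕ → ℝ} (hw : w ∈ VV) :
    nrm q (a • w) ≤ |a| * nrm q w := by
  refine ciSup_le fun σ => le_trans (le_of_eq ?_)
    (mul_le_mul_of_nonneg_left (sv_le hq hw σ) (abs_nonneg a))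
  have e : ∀ p, df (a • w) p = a * df w p := fun p => by
    have := df_lin a 0 w w p
    simp only [zero_mul, add_zero] at this
    exact this
  unfold sv
  simp only [e, abs_mul]
  have h2 : ∀ i, (|a| * |df w (σ.2.1 i)|) ^ q = |a| ^ q * |df w (σ.2.1 i)| ^ q := fun i =>
    Real.mul_rpow (abs_nonneg _) (abs_nonneg _)
  simp only [h2]
  rw [← mul_sum, Real.mul_rpow (by positivity) (by positivity), ← Real.rpow_mul (abs_nonneg _),
    mul_one_div_cancel (by linarith), Real.rpow_one]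

/-- The normed space of finitely supported functions on the forest. -/
def Y (_q : ℝ) : Type := VV

noncomputable instance (q : ℝ) : AddCommGroup (Y q) := inferInstanceAs (AddCommGroup VV)

noncomputable instance (q : ℝ) : Module ℝ (Y q) := inferInstanceAs (Module ℝ VV)

/-- The underlying function. -/
def Y.fn {q : ℝ} (w : Y q) : List ℕ → ℝ := Subtype.val w

lemma Y.mem {q : ℝ} (w : Y q) : w.fn ∈ VV := Subtype.property w

/-- An element from a function. -/
def Y.mk (q : ℝ) (w : List ℕ → ℝ) (hw : w ∈ VV) : Y q := (⟨w, hw⟩ : VV)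

lemma Y.ext {q : ℝ} {v w : Y q} (h : ∀ t, v.fn t = w.fn t) : v = w := Subtype.ext (funext h)

lemma fn_add {q : ℝ} (v w : Y q) (t : List ℕ) : (v + w).fn t = v.fn t + w.fn t := rfl

lemma fn_sub {q : ℝ} (v w : Y q) (t : List ℕ) : (v - w).fn t = v.fn t - w.fn t := rfl

lemma fn_smul {q : ℝ} (a : ℝ) (w : Y q) (t : List ℕ) : (a • w).fn t = a * w.fn t := rfl

lemma fn_zero {q : ℝ} (t : List ℕ) : (0 : Y q).fn t = 0 := rfl

variable {q : ℝ} [hq : Fact (1 < q)]

noncomputable instance : NormedAddCommGroup (Y q) :=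
  AddGroupNorm.toNormedAddCommGroup
    { toFun := fun w => nrm q w.fn
      map_zero' := by
        refine le_antisymm ?_ (nrm_nonneg _ _)
        have h := nrm_smul_le hq.out.le 0 (0 : Y q).mem
        rw [abs_zero, zero_mul, zero_smul] at h
        exact h
      add_le' := fun v w => nrm_add_le hq.out.le v.mem w.mem
      neg' := fun w => by
        have h : ∀ v : Y q, nrm q (-v).fn ≤ nrm q v.fn := fun v => by
          have h := nrm_smul_le hq.out.le (-1) v.mem
          rw [abs_neg, abs_one, one_mul, neg_one_smul] at h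
          exact h
        refine le_antisymm (h w) ?_
        have := h (-w)
        rwa [neg_neg] at this
      eq_zero_of_map_eq_zero' := fun w hw => Y.ext fun t => by
        have h := abs_le_nrm hq.out.le w.mem t
        rw [hw] at h
        exact abs_nonpos_iff.1 h }

lemma norm_eq (w : Y q) : ‖w‖ = nrm q w.fn := rfl

noncomputable instance : NormedSpace ℝ (Y q) where
  norm_smul_le a w := nrm_smul_le hq.out.le a w.mem

end Vale.Agent.N069
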